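import Mathlib

set_option autoImplicit false

namespace Crest.Agent.H0268

open CategoryTheory CategoryTheory.Abelian Function

section Hom

variable {R : Type} [Ring R] (J : Ideal R) [J.IsTwoSided]

/-- modules killed by `J` -/
class Kil (N : Type) [AddCommGroup N] [Module R N] : Prop where
  kil : ∀ a ∈ J, ∀ x : N, a • x = 0

lemma Kil.tors (N : Type) [AddCommGroup N] [Module R N] [h : Kil J N] :
    Module.IsTorsionBySet R N J := fun x a => h.kil a.1 a.2 x

instance (N : Type) [AddCommGroup N] [Module R N] [h : Kil J N] (p : Submodule R N) : Kil J p :=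
  ⟨fun a ha x => Subtype.ext (h.kil a ha x.1)⟩

instance : Kil J (R ⧸ J) := ⟨fun a ha x => by
  obtain ⟨b, rfl⟩ := Ideal.Quotient.mk_surjective x
  change Ideal.Quotient.mk J (a * b) = 0
  exact Ideal.Quotient.eq_zero_iff_mem.2 (J.mul_mem_right b ha)⟩

/-- the associated module over the quotient ring -/
noncomputable def obj (N : Type) [AddCommGroup N] [Module R N] [Kil J N] : ModuleCat.{0} (R ⧸ J) :=
  letI := (Kil.tors J N).module
  ModuleCat.of (R ⧸ J) N

variable {N N' N1 N2 N3 S : Type} [AddCommGroup N] [Module R N] [Kil J N]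
  [AddCommGroup N'] [Module R N'] [Kil J N']
  [AddCommGroup N1] [Module R N1] [Kil J N1]
  [AddCommGroup N2] [Module R N2] [Kil J N2]
  [AddCommGroup N3] [Module R N3] [Kil J N3]
  [AddCommGroup S] [Module R S] [Kil J S]

noncomputable def hom (f : N →ₗ[R] N') : obj J N ⟶ obj J N' :=
  letI := (Kil.tors J N).module
  letI := (Kil.tors J N').module
  ModuleCat.ofHom
    { toFun := f
      map_add' := f.map_add
      map_smul' := fun a x => by
        obtain ⟨b, rfl⟩ := Ideal.Quotient.mk_surjective a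
        exact f.map_smul b x }

noncomputable def unhom (φ : obj J N ⟶ obj J N') : N →ₗ[R] N' :=
  { toFun := fun x => φ.hom x
    map_add' := fun x y => φ.hom.map_add x y
    map_smul' := fun a x => φ.hom.map_smul (Ideal.Quotient.mk J a) x }

def PD (N : Type) [AddCommGroup N] [Module R N] [Kil J N] (k : ℕ) : Prop :=
  HasProjectiveDimensionLT (obj J N) k

noncomputable def sc (f : N1 →ₗ[R] N2) (g : N2 →ₗ[R] N3) (h : Exact f g) :
    ShortComplex (ModuleCat.{0} (R ⧸ J)) :=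
  ShortComplex.mk (hom J f) (hom J g) (by
    ext x
    exact h.apply_apply_eq_zero x)

lemma sc_exact (f : N1 →ₗ[R] N2) (g : N2 →ₗ[R] N3) (h : Exact f g) (hf : Injective f)
    (hg : Surjective g) : (sc J f g h).ShortExact :=
  ModuleCat.shortComplex_shortExact _ h hf hg

variable {J}

lemma PD.mono {n m : ℕ} (h : PD J N n) (hnm : n ≤ m) : PD J N m := by
  haveI : HasProjectiveDimensionLT (obj J N) n := h
  exact hasProjectiveDimensionLT_of_ge _ n m hnm

lemma pd1 {f : N1 →ₗ[R] N2} {g : N2 →ₗ[R] N3} (h : Exact f g) (hf : Injective f)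
    (hg : Surjective g) {n : ℕ} (h2 : PD J N2 n) (h3 : PD J N3 (n + 1)) : PD J N1 n :=
  (sc_exact J f g h hf hg).hasProjectiveDimensionLT_X₁ n h2 h3

lemma pd2 {f : N1 →ₗ[R] N2} {g : N2 →ₗ[R] N3} (h : Exact f g) (hf : Injective f)
    (hg : Surjective g) {n : ℕ} (h1 : PD J N1 n) (h3 : PD J N3 n) : PD J N2 n :=
  (sc_exact J f g h hf hg).hasProjectiveDimensionLT_X₂ n h1 h3

lemma pd3 {f : N1 →ₗ[R] N2} {g : N2 →ₗ[R] N3} (h : Exact f g) (hf : Injective f)
    (hg : Surjective g) {n : ℕ} (h1 : PD J N1 n) (h2 : PD J N2 (n + 1)) : PD J N3 (n + 1) :=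
  (sc_exact J f g h hf hg).hasProjectiveDimensionLT_X₃ n h1 h2

lemma pd_zero [Subsingleton N] : PD J N 0 := by
  haveI : Subsingleton (obj J N) := (inferInstance : Subsingleton N)
  exact (ModuleCat.isZero_of_subsingleton (obj J N)).hasProjectiveDimensionLT_zero

lemma finite_obj [Module.Finite R N] : Module.Finite (R ⧸ J) (obj J N) := by
  letI := (Kil.tors J N).module
  change Module.Finite (R ⧸ J) N
  obtain ⟨s, hs⟩ := Module.Finite.fg_top (R := R) (M := N)
  refine ⟨⟨s, ?_⟩⟩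
  rw [eq_top_iff]
  intro x _
  have hx : x ∈ Submodule.span R (s : Set N) := by rw [hs]; trivial
  induction hx using Submodule.span_induction with
  | mem x hx => exact Submodule.subset_span hx
  | zero => exact Submodule.zero_mem _
  | add x y _ _ hx hy => exact Submodule.add_mem _ (hx trivial) (hy trivial)
  | smul a x _ hx => exact Submodule.smul_mem _ (Ideal.Quotient.mk J a) (hx trivial)

lemma pd_free {M : Type} [AddCommGroup M] [Module R M] {ι : Type} [Fintype ι]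
    (π : M →ₗ[R] N) (hπ : Surjective π) (p : ι → M →ₗ[R] R)
    (hp : ∀ i y, π y = 0 → p i y ∈ J) (g : ι → N) (hg : ∀ y, ∑ i, p i y • g i = π y) :
    PD J N 1 := by
  classical
  letI := (Kil.tors J N).module
  have hproj : Module.Projective (R ⧸ J) N := by
    let q : ι → N →ₗ[R] (R ⧸ J) := fun i =>
      ((LinearMap.ker π).liftQ (J.mkQ ∘ₗ p i) (fun y hy => by
        simpa using Ideal.Quotient.eq_zero_iff_mem.2 (hp i y hy))) ∘ₗ
        (π.quotKerEquivOfSurjective hπ).symm.toLinearMap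
    have hq : ∀ i y, q i (π y) = Ideal.Quotient.mk J (p i y) := by
      intro i y
      have : (π.quotKerEquivOfSurjective hπ).symm (π y) = Submodule.Quotient.mk y := by
        rw [LinearEquiv.symm_apply_eq]; rfl
      simp only [q, LinearMap.comp_apply, LinearEquiv.coe_coe, this]
      rfl
    let i : N →ₗ[R ⧸ J] (ι → R ⧸ J) :=
      { toFun := fun y k => q k y
        map_add' := fun x y => by ext k; simp
        map_smul' := fun a x => by
          obtain ⟨b, rfl⟩ := Ideal.Quotient.mk_surjective a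
          ext k
          exact (q k).map_smul b x }
    let s : (ι → R ⧸ J) →ₗ[R ⧸ J] N := Fintype.linearCombination (R ⧸ J) g
    refine Module.Projective.of_split i s ?_
    ext y
    obtain ⟨m, rfl⟩ := hπ y
    simp only [LinearMap.comp_apply, s, Fintype.linearCombination_apply, LinearMap.id_apply]
    rw [← hg m]
    refine Finset.sum_congr rfl fun k _ => ?_
    change q k (∑ i, p i m • g i) • g k = _
    rw [hg m, hq]
    rfl
  haveI : Projective (obj J N) := ModuleCat.projective_of_categoryTheory_projective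
    (ModuleCat.of (R ⧸ J) N)
  exact (inferInstance : HasProjectiveDimensionLT (obj J N) 1)

variable (J)

/-- all Ext groups into `S` vanish -/
def Van (S N : Type) [AddCommGroup S] [Module R S] [Kil J S] [AddCommGroup N] [Module R N]
    [Kil J N] : Prop :=
  ∀ k (e : Ext.{0} (obj J N) (obj J S) k), e = 0

def NV (S N : Type) [AddCommGroup S] [Module R S] [Kil J S] [AddCommGroup N] [Module R N]
    [Kil J N] (k : ℕ) : Prop :=
  ∃ e : Ext.{0} (obj J N) (obj J S) k, e ≠ 0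

variable {J}

lemma van3_aux {C : Type 1} [Category.{0} C] [Abelian C] [HasExt.{0} C] {T : ShortComplex C}
    (hS : T.ShortExact) (Y : C) (h1 : ∀ k (e : Ext.{0} T.X₁ Y k), e = 0)
    (h2 : ∀ k (e : Ext.{0} T.X₂ Y k), e = 0) : ∀ k (e : Ext.{0} T.X₃ Y k), e = 0 := by
  rintro (_ | k) e
  · haveI : Epi T.g := hS.epi_g
    apply Ext.precomp_mk₀_injective_of_epi Y T.g
    rw [map_zero]
    exact h2 0 _
  · obtain ⟨x₁, rfl⟩ := Ext.contravariant_sequence_exact₃ hS Y (n₁ := k + 1) e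
      (h2 _ _) (add_comm _ _)
    rw [h1 k x₁, Ext.comp_zero]

lemma nv3_aux {C : Type 1} [Category.{0} C] [Abelian C] [HasExt.{0} C] {T : ShortComplex C}
    (hS : T.ShortExact) (Y : C) {k : ℕ} (h1 : ∃ e : Ext.{0} T.X₁ Y k, e ≠ 0)
    (h2 : ∀ k (e : Ext.{0} T.X₂ Y k), e = 0) : ∃ e : Ext.{0} T.X₃ Y (k + 1), e ≠ 0 := by
  obtain ⟨e, he⟩ := h1
  refine ⟨hS.extClass.comp e (add_comm _ _), fun h0 => he ?_⟩
  obtain ⟨x₂, rfl⟩ := Ext.contravariant_sequence_exact₁ hS Y e (add_comm _ _) h0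
  rw [h2 k x₂, Ext.comp_zero]

lemma van3 {f : N1 →ₗ[R] N2} {g : N2 →ₗ[R] N3} (h : Exact f g) (hf : Injective f)
    (hg : Surjective g) (h1 : Van J S N1) (h2 : Van J S N2) : Van J S N3 :=
  van3_aux (sc_exact J f g h hf hg) _ h1 h2

lemma nv3 {f : N1 →ₗ[R] N2} {g : N2 →ₗ[R] N3} (h : Exact f g) (hf : Injective f)
    (hg : Surjective g) {k : ℕ} (h1 : NV J S N1 k) (h2 : Van J S N2) : NV J S N3 (k + 1) :=
  nv3_aux (sc_exact J f g h hf hg) _ h1 h2

lemma van_of_proj (h : PD J N 1) (h0 : ∀ φ : N →ₗ[R] S, φ = 0) : Van J S N := by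
  haveI : HasProjectiveDimensionLT (obj J N) 1 := h
  rintro (_ | k) e
  · obtain ⟨φ, rfl⟩ := Ext.addEquiv₀.symm.surjective e
    have : φ = 0 := by
      ext x
      exact LinearMap.congr_fun (h0 (unhom J φ)) x
    rw [this, map_zero]
  · exact e.eq_zero_of_hasProjectiveDimensionLT 1 (by omega)

lemma nv_zero (φ : N →ₗ[R] S) (h : φ ≠ 0) : NV J S N 0 := by
  refine ⟨Ext.addEquiv₀.symm (hom J φ), fun h0 => h ?_⟩
  have : hom J φ = 0 := by simpa using h0
  ext x
  exact congrArg (fun ψ : obj J N ⟶ obj J S => ψ.hom x) this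

lemma NV.not_pd {k : ℕ} (h : NV J S N k) : ¬ PD J N k := by
  intro hp
  haveI : HasProjectiveDimensionLT (obj J N) k := hp
  obtain ⟨e, he⟩ := h
  exact he (e.eq_zero_of_hasProjectiveDimensionLT k le_rfl)

end Hom

section Snake

variable {R : Type} [Ring R] {M₁ M₂ M₃ N₁ N₂ N₃ K : Type}
  [AddCommGroup M₁] [Module R M₁] [AddCommGroup M₂] [Module R M₂] [AddCommGroup M₃] [Module R M₃]
  [AddCommGroup N₁] [Module R N₁] [AddCommGroup N₂] [Module R N₂] [AddCommGroup N₃] [Module R N₃]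
  [AddCommGroup K] [Module R K]

/-- induced map on cokernels -/
def cokMap (i₁ : M₁ →ₗ[R] N₁) (i₂ : M₂ →ₗ[R] N₂) (f : M₁ →ₗ[R] M₂) (g : N₁ →ₗ[R] N₂)
    (h : ∀ x, g (i₁ x) = i₂ (f x)) :
    (N₁ ⧸ LinearMap.range i₁) →ₗ[R] (N₂ ⧸ LinearMap.range i₂) :=
  Submodule.mapQ _ _ g (by rintro _ ⟨x, rfl⟩; exact ⟨f x, (h x).symm⟩)

@[simp] lemma cokMap_mk (i₁ : M₁ →ₗ[R] N₁) (i₂ : M₂ →ₗ[R] N₂) (f : M₁ →ₗ[R] M₂) (g : N₁ →ₗ[R] N₂)
    (h : ∀ x, g (i₁ x) = i₂ (f x)) (y : N₁) :
    cokMap i₁ i₂ f g h (Submodule.Quotient.mk y) = Submodule.Quotient.mk (g y) := rfl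

variable {i₁ : M₁ →ₗ[R] N₁} {i₂ : M₂ →ₗ[R] N₂} {i₃ : M₃ →ₗ[R] N₃}
  {f₁ : M₁ →ₗ[R] M₂} {f₂ : M₂ →ₗ[R] M₃} {g₁ : N₁ →ₗ[R] N₂} {g₂ : N₂ →ₗ[R] N₃}
  (h₁ : ∀ x, g₁ (i₁ x) = i₂ (f₁ x)) (h₂ : ∀ x, g₂ (i₂ x) = i₃ (f₂ x))

lemma cok_surj (hg : Surjective g₂) : Surjective (cokMap i₂ i₃ f₂ g₂ h₂) := by
  intro y
  obtain ⟨y, rfl⟩ := Submodule.Quotient.mk_surjective _ y
  obtain ⟨x, rfl⟩ := hg y
  exact ⟨Submodule.Quotient.mk x, rfl⟩

lemma cok_exact (hf : Surjective f₂) (hg : Exact g₁ g₂) :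
    Exact (cokMap i₁ i₂ f₁ g₁ h₁) (cokMap i₂ i₃ f₂ g₂ h₂) := by
  intro y
  obtain ⟨y, rfl⟩ := Submodule.Quotient.mk_surjective _ y
  constructor
  · intro H
    rw [cokMap_mk, Submodule.Quotient.mk_eq_zero] at H
    obtain ⟨m, hm⟩ := H
    obtain ⟨m, rfl⟩ := hf m
    obtain ⟨x, hx⟩ := (hg (y - i₂ m)).1 (by rw [map_sub, h₂, hm, sub_self])
    refine ⟨Submodule.Quotient.mk x, ?_⟩
    rw [cokMap_mk, hx, Submodule.Quotient.eq]
    exact ⟨-m, by simp⟩
  · rintro ⟨x, hx⟩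
    obtain ⟨x, rfl⟩ := Submodule.Quotient.mk_surjective _ x
    rw [← hx, cokMap_mk, cokMap_mk, hg.apply_apply_eq_zero, Submodule.Quotient.mk_zero]

include h₂ in
lemma cok_inj (hf : Exact f₁ f₂) (hg : Exact g₁ g₂) (hg₁ : Injective g₁) (hi : Injective i₃) :
    Injective (cokMap i₁ i₂ f₁ g₁ h₁) := by
  rw [injective_iff_map_eq_zero]
  intro y H
  obtain ⟨y, rfl⟩ := Submodule.Quotient.mk_surjective _ y
  rw [cokMap_mk, Submodule.Quotient.mk_eq_zero] at H
  obtain ⟨m, hm⟩ := H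
  obtain ⟨x, rfl⟩ := (hf m).1 (hi (by rw [← h₂, hm, hg.apply_apply_eq_zero, map_zero]))
  rw [Submodule.Quotient.mk_eq_zero]
  exact ⟨x, hg₁ (by rw [h₁, hm])⟩

include h₂ in
/-- snake lemma, noncommutative base ring, in the case where the middle vertical map is injective -/
lemma snake (hf : Exact f₁ f₂) (hf₂ : Surjective f₂) (hg : Exact g₁ g₂) (hg₁ : Injective g₁)
    (hi : Injective i₂) (ι : K →ₗ[R] M₃) (hι : Injective ι) (hK : Exact ι i₃) :
    ∃ δ : K →ₗ[R] (N₁ ⧸ LinearMap.range i₁), Injective δ ∧ Exact δ (cokMap i₁ i₂ f₁ g₁ h₁) := by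
  have hex : ∀ x : K, ∃ z : N₁, ∃ y : M₂, f₂ y = ι x ∧ g₁ z = i₂ y := by
    intro x
    obtain ⟨y, hy⟩ := hf₂ (ι x)
    obtain ⟨z, hz⟩ := (hg (i₂ y)).1 (by rw [h₂, hy, hK.apply_apply_eq_zero])
    exact ⟨z, y, hy, hz⟩
  choose z y hy hz using hex
  have huniq : ∀ (x : K) (z' : N₁) (y' : M₂), f₂ y' = ι x → g₁ z' = i₂ y' →
      (Submodule.Quotient.mk (z x) : N₁ ⧸ LinearMap.range i₁) = Submodule.Quotient.mk z' := by
    intro x z' y' h1 h2
    obtain ⟨d, hd⟩ := (hf (y x - y')).1 (by rw [map_sub, hy, h1, sub_self])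
    rw [Submodule.Quotient.eq]
    exact ⟨d, hg₁ (by rw [h₁, hd, map_sub, map_sub, hz, h2])⟩
  let δ : K →ₗ[R] (N₁ ⧸ LinearMap.range i₁) :=
    { toFun := fun x => Submodule.Quotient.mk (z x)
      map_add' := fun a b => by
        rw [← Submodule.Quotient.mk_add]
        exact huniq _ _ (y a + y b) (by simp [hy]) (by simp [hz])
      map_smul' := fun r a => by
        rw [RingHom.id_apply, ← Submodule.Quotient.mk_smul]
        exact huniq _ _ (r • y a) (by simp [hy]) (by simp [hz]) }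
  refine ⟨δ, ?_, ?_⟩
  · rw [injective_iff_map_eq_zero]
    intro x hx
    obtain ⟨m, hm⟩ := (Submodule.Quotient.mk_eq_zero _).1 hx
    have : y x = f₁ m := hi (by rw [← hz, ← hm, h₁])
    apply hι
    rw [← hy, this, hf.apply_apply_eq_zero, map_zero]
  · intro c
    obtain ⟨c, rfl⟩ := Submodule.Quotient.mk_surjective _ c
    constructor
    · intro H
      rw [cokMap_mk, Submodule.Quotient.mk_eq_zero] at H
      obtain ⟨m, hm⟩ := H
      obtain ⟨x, hx⟩ := (hK (f₂ m)).1 (by rw [← h₂, hm, hg.apply_apply_eq_zero])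
      exact ⟨x, huniq x c m hx.symm hm.symm⟩
    · rintro ⟨x, hx⟩
      rw [← hx]
      change cokMap i₁ i₂ f₁ g₁ h₁ (Submodule.Quotient.mk (z x)) = 0
      rw [cokMap_mk, hz, Submodule.Quotient.mk_eq_zero]
      exact ⟨_, rfl⟩

end Snake

end Crest.Agent.H0268
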