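import Crest.Agent.H0268.FM
import Crest.Agent.H0268.Hom

set_option autoImplicit false

namespace Crest.Agent.H0268

open Function Sum

abbrev II : Type := Fin 5 ⊕ (Fin 5 × Fin 2)

def lev : II → ℕ := Sum.elim (fun i => i.1) (fun q => q.1.1 + 1)

@[simp] lemma lev_inl (i : Fin 5) : lev (inl i) = i.1 := rfl
@[simp] lemma lev_inr (q : Fin 5 × Fin 2) : lev (inr q) = q.1.1 + 1 := rfl

noncomputable def AtS : Subalgebra ℂ (Matrix II II U) where
  carrier := {a | (∀ κ μ, a κ μ ∈ Ud (lev κ) (lev μ)) ∧ (∀ i q, a (inl i) (inr q) = 0) ∧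
    ∀ p q, a (inr p) (inr q) = Del rhoW (a (inl p.1) (inl q.1)) p.2 q.2}
  mul_mem' := by
    rintro a b ⟨ha1, ha2, ha3⟩ ⟨hb1, hb2, hb3⟩
    refine ⟨fun κ μ => ?_, fun i q => ?_, fun p q => ?_⟩
    · rw [Matrix.mul_apply]
      exact Submodule.sum_mem _ fun k _ => Ud_mul (ha1 κ k) (hb1 k μ)
    · simp [Matrix.mul_apply, Fintype.sum_sum_type, ha2, hb2]
    · simp [Matrix.mul_apply, Fintype.sum_sum_type, ha2, hb2, ha3, hb3, Fintype.sum_prod_type,
        Matrix.sum_apply]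
  add_mem' := by
    rintro a b ⟨ha1, ha2, ha3⟩ ⟨hb1, hb2, hb3⟩
    refine ⟨fun κ μ => add_mem (ha1 κ μ) (hb1 κ μ), fun i q => ?_, fun p q => ?_⟩
    · simp [ha2, hb2]
    · simp [ha3, hb3]
  algebraMap_mem' := fun c => by
    refine ⟨fun κ μ => ?_, fun i q => ?_, fun p q => ?_⟩
    · rw [Matrix.algebraMap_matrix_apply]
      split_ifs with h
      · subst h
        exact mem_Ud.2 (Or.inr ⟨0, rfl, alg_mem_Fil0 c⟩)
      · exact zero_mem _
    · simp [Matrix.algebraMap_matrix_apply]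
    · obtain ⟨j, s⟩ := p
      obtain ⟨i, t⟩ := q
      by_cases h : j = i
      · simp [Matrix.algebraMap_matrix_apply, h]
      · simp [Matrix.algebraMap_matrix_apply, h]

abbrev At : Type := ↥AtS

lemma At.h1 (a : At) (κ μ : II) : a.1 κ μ ∈ Ud (lev κ) (lev μ) := a.2.1 κ μ
lemma At.h2 (a : At) (i : Fin 5) (q : Fin 5 × Fin 2) : a.1 (inl i) (inr q) = 0 := a.2.2.1 i q
lemma At.h3 (a : At) (p q : Fin 5 × Fin 2) :
    a.1 (inr p) (inr q) = Del rhoW (a.1 (inl p.1) (inl q.1)) p.2 q.2 := a.2.2.2 p q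

lemma At.ext' {a b : At} (h : ∀ κ i, a.1 κ (inl i) = b.1 κ (inl i)) : a = b := by
  ext (i | p) (j | q)
  · exact h _ _
  · rw [a.h2, b.h2]
  · exact h _ _
  · rw [a.h3, b.h3, h]

instance : FiniteDimensional ℂ At := by
  haveI : Module.Finite ℂ (Fil 5) := Module.Finite.iff_fg.2 (Fil_fg 5)
  have hl : ∀ κ, lev κ ≤ 5 := by
    rintro (i | ⟨i, s⟩)
    · simp only [lev_inl]; omega
    · simp only [lev_inr]; omega
  let φ : At →ₗ[ℂ] (II → II → Fil 5) :=
    { toFun := fun a κ μ => ⟨a.1 κ μ, Fil_mono (hl κ) (Ud_le _ _ (a.h1 κ μ))⟩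
      map_add' := fun _ _ => rfl
      map_smul' := fun _ _ => rfl }
  refine Module.Finite.of_injective φ fun a b h => ?_
  ext κ μ
  exact congrArg Subtype.val (congrFun (congrFun h κ) μ)

noncomputable def beta : At →+* Matrix (Fin 5) (Fin 5) U where
  toFun a := Matrix.of fun i j => a.1 (inl i) (inl j)
  map_one' := by ext i j; simp [Matrix.one_apply]
  map_mul' a b := by ext i j; simp [Matrix.mul_apply, Fintype.sum_sum_type, At.h2]
  map_zero' := by ext i j; simp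
  map_add' a b := by ext i j; simp

@[simp] lemma beta_apply (a : At) (i j : Fin 5) : beta a i j = a.1 (inl i) (inl j) := rfl

/-- window data -/
structure Win where
  L : Type
  [fin : Fintype L]
  [dec : DecidableEq L]
  l : L → ℕ
  r : At →+* Matrix L L U
  hr : ∀ a κ μ, r a κ μ ∈ Ud (l κ) (l μ)

attribute [instance] Win.fin Win.dec

@[reducible] noncomputable def WI : Win where
  L := II
  l := lev
  r := AtS.val.toRingHom
  hr := At.h1

@[reducible] noncomputable def WX : Win where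
  L := Fin 5
  l := fun i => i.1
  r := beta
  hr := fun a i j => a.h1 (inl i) (inl j)

def PsiS (w : Win) (Y : FM) : AddSubgroup (w.L → Y.Y) where
  carrier := {y | ∀ κ, y κ ∈ Y.F (w.l κ)}
  add_mem' := fun ha hb k => add_mem (ha k) (hb k)
  zero_mem' := fun _ => zero_mem _
  neg_mem' := fun ha k => neg_mem (ha k)

def Psi (w : Win) (Y : FM) : Type := {y : w.L → Y.Y // ∀ κ, y κ ∈ Y.F (w.l κ)}

section Psi

variable {w : Win} {Y Y' : FM}

instance : AddCommGroup (Psi w Y) := (PsiS w Y).toAddCommGroup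

@[ext] lemma Psi.ext {x y : Psi w Y} (h : ∀ k, x.1 k = y.1 k) : x = y := Subtype.ext (funext h)

@[simp] lemma Psi.add_apply (x y : Psi w Y) (k : w.L) : (x + y).1 k = x.1 k + y.1 k := rfl
@[simp] lemma Psi.sub_apply (x y : Psi w Y) (k : w.L) : (x - y).1 k = x.1 k - y.1 k := rfl
@[simp] lemma Psi.zero_apply (k : w.L) : (0 : Psi w Y).1 k = 0 := rfl
@[simp] lemma Psi.sum_apply {κ : Type} (s : Finset κ) (x : κ → Psi w Y) (k : w.L) :
    (∑ i ∈ s, x i).1 k = ∑ i ∈ s, (x i).1 k := by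
  classical
  induction s using Finset.induction_on with
  | empty => rfl
  | insert a s ha ih => rw [Finset.sum_insert ha, Finset.sum_insert ha, Psi.add_apply, ih]

noncomputable instance : Module At (Psi w Y) where
  smul a y := ⟨fun k => ∑ i, w.r a k i • y.1 i,
    fun k => sum_mem fun i _ => Y.Ud_smul (w.hr a k i) (y.2 i)⟩
  one_smul y := by
    ext k
    change ∑ i, w.r 1 k i • y.1 i = y.1 k
    simp [Matrix.one_apply]
  mul_smul u v y := by
    ext k
    change ∑ i, w.r (u * v) k i • y.1 i = ∑ i, w.r u k i • ∑ j, w.r v i j • y.1 j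
    simp only [map_mul, Matrix.mul_apply, Finset.sum_smul, Finset.smul_sum, mul_smul]
    exact Finset.sum_comm
  smul_zero u := by
    ext k
    change ∑ i, w.r u k i • (0 : Y.Y) = 0
    simp
  smul_add u x y := by
    ext k
    change ∑ i, w.r u k i • (x.1 i + y.1 i) = ∑ i, w.r u k i • x.1 i + ∑ i, w.r u k i • y.1 i
    simp [Finset.sum_add_distrib]
  add_smul u v y := by
    ext k
    change ∑ i, w.r (u + v) k i • y.1 i = ∑ i, w.r u k i • y.1 i + ∑ i, w.r v k i • y.1 i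
    simp [Finset.sum_add_distrib, add_smul]
  zero_smul y := by
    ext k
    change ∑ i, w.r 0 k i • y.1 i = 0
    simp

lemma Psi.smul_apply (a : At) (y : Psi w Y) (k : w.L) :
    (a • y).1 k = ∑ i, w.r a k i • y.1 i := rfl

variable (w)

noncomputable def Psi.map (f : FHom Y Y') : Psi w Y →ₗ[At] Psi w Y' where
  toFun y := ⟨fun k => f.lin (y.1 k), fun k => f.mem _ _ (y.2 k)⟩
  map_add' x y := by ext k; simp
  map_smul' u y := by ext k; simp [Psi.smul_apply]

@[simp] lemma Psi.map_apply (f : FHom Y Y') (y : Psi w Y) (k : w.L) :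
    (Psi.map w f y).1 k = f.lin (y.1 k) := rfl

lemma Psi.map_inj {f : FHom Y Y'} (hf : Injective f.lin) : Injective (Psi.map w f) :=
  fun _ _ hxy => Psi.ext fun k => hf (congrFun (congrArg Subtype.val hxy) k)

variable {Y1 Y2 Y3 : FM} {f : FHom Y1 Y2} {g : FHom Y2 Y3}

lemma SES.psi_exact (h : SES f g) : Exact (Psi.map w f) (Psi.map w g) := by
  intro y
  constructor
  · intro h0
    choose x hx hx' using fun k => h.ex _ (y.1 k) (y.2 k) (congrFun (congrArg Subtype.val h0) k)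
    exact ⟨⟨x, hx⟩, Psi.ext hx'⟩
  · rintro ⟨x, rfl⟩
    exact Psi.ext fun k => h.comp _

lemma SES.psi_surj (h : SES f g) : Surjective (Psi.map w g) := by
  intro y
  choose x hx hx' using fun k => h.surj _ (y.1 k) (y.2 k)
  exact ⟨⟨x, hx⟩, Psi.ext hx'⟩

end Psi

abbrev Pt (Y : FM) : Type := Psi WI Y
abbrev XX (Y : FM) : Type := Psi WX Y

lemma Pt.smul_inl {Y : FM} (a : At) (y : Pt Y) (k : Fin 5) :
    (a • y).1 (inl k) = ∑ i, a.1 (inl k) (inl i) • y.1 (inl i) := by
  rw [Psi.smul_apply]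
  simp [Fintype.sum_sum_type, At.h2]

lemma Pt.smul_inr {Y : FM} (a : At) (y : Pt Y) (k : Fin 5) (s : Fin 2) :
    (a • y).1 (inr (k, s)) = ∑ i, a.1 (inr (k, s)) (inl i) • y.1 (inl i) +
      ∑ i, ∑ t, Del rhoW (a.1 (inl k) (inl i)) s t • y.1 (inr (i, t)) := by
  rw [Psi.smul_apply]
  simp [Fintype.sum_sum_type, At.h3, Fintype.sum_prod_type]

lemma XX.smul_apply {Y : FM} (a : At) (y : XX Y) (k : Fin 5) :
    (a • y).1 k = ∑ i, a.1 (inl k) (inl i) • y.1 i := rfl

noncomputable def mu (Y : FM) : XX (up (G rhoW Y)) →ₗ[At] Pt Y where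
  toFun w := ⟨Sum.elim (fun _ => 0) (fun q => w.1 q.1 q.2), by
    rintro (i | ⟨j, s⟩)
    · exact zero_mem _
    · exact w.2 j s⟩
  map_add' x y := by
    ext (i | ⟨j, s⟩)
    · exact (add_zero _).symm
    · rfl
  map_smul' a y := by
    ext (i | ⟨j, s⟩)
    · rw [RingHom.id_apply, Pt.smul_inl]; simp
    · rw [RingHom.id_apply, Pt.smul_inr]
      change (a • y).1 j s = _
      rw [XX.smul_apply]
      simp [GY.smul_apply]

@[simp] lemma mu_inl {Y : FM} (w : XX (up (G rhoW Y))) (i : Fin 5) : (mu Y w).1 (inl i) = 0 := rfl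
@[simp] lemma mu_inr {Y : FM} (w : XX (up (G rhoW Y))) (i : Fin 5) (s : Fin 2) :
    (mu Y w).1 (inr (i, s)) = w.1 i s := rfl

lemma mu_inj (Y : FM) : Injective (mu Y) := fun x y h => Psi.ext fun i => funext fun s =>
  congrFun (congrArg Subtype.val h) (inr (i, s))

noncomputable def omH (Y : FM) : FHom (G rhoW Y) (up (G rhoW Y)) :=
  ⟨omL Y.Y, fun _ _ hw => omL_mem Y hw⟩

noncomputable def nu (Y : FM) : XX (G rhoW Y) →ₗ[At] Pt Y := mu Y ∘ₗ Psi.map WX (omH Y)

@[simp] lemma nu_inl {Y : FM} (w : XX (G rhoW Y)) (i : Fin 5) : (nu Y w).1 (inl i) = 0 := rfl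
@[simp] lemma nu_inr {Y : FM} (w : XX (G rhoW Y)) (i : Fin 5) (s : Fin 2) :
    (nu Y w).1 (inr (i, s)) = omL Y.Y (w.1 i) s := rfl

lemma nu_inj {Y : FM} (h : Injective (omL Y.Y)) : Injective (nu Y) :=
  (mu_inj Y).comp (Psi.map_inj WX (f := omH Y) h)

lemma nu_nat {Y Y' : FM} (f : FHom Y Y') (w : XX (G rhoW Y)) :
    Psi.map WI f (nu Y w) = nu Y' (Psi.map WX (Gmap rhoW f) w) := by
  ext (i | ⟨j, s⟩)
  · exact map_zero f.lin
  · exact omL_map f.lin _ _

abbrev Ph (Y : FM) : Type := Pt Y ⧸ LinearMap.range (nu Y)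

noncomputable def Phmap {Y Y' : FM} (f : FHom Y Y') : Ph Y →ₗ[At] Ph Y' :=
  cokMap (nu Y) (nu Y') (Psi.map WX (Gmap rhoW f)) (Psi.map WI f) (nu_nat f)

noncomputable def pr (Y : FM) : Pt Y →ₗ[At] XX Y where
  toFun y := ⟨fun i => y.1 (inl i), fun i => y.2 (inl i)⟩
  map_add' _ _ := rfl
  map_smul' a y := by
    ext i
    exact Pt.smul_inl a y i

@[simp] lemma pr_apply {Y : FM} (y : Pt Y) (i : Fin 5) : (pr Y y).1 i = y.1 (inl i) := rfl

lemma pr_surj (Y : FM) : Surjective (pr Y) := fun x =>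
  ⟨⟨Sum.elim x.1 (fun _ => 0), by
    rintro (i | q)
    · exact x.2 i
    · exact zero_mem _⟩, rfl⟩

noncomputable def prP (Y : FM) : Ph Y →ₗ[At] XX Y :=
  (LinearMap.range (nu Y)).liftQ (pr Y) (by rintro _ ⟨w, rfl⟩; rfl)

@[simp] lemma prP_mk {Y : FM} (y : Pt Y) : prP Y (Submodule.Quotient.mk y) = pr Y y := rfl

lemma prP_surj (Y : FM) : Surjective (prP Y) := fun x => by
  obtain ⟨y, rfl⟩ := pr_surj Y x
  exact ⟨Submodule.Quotient.mk y, rfl⟩

noncomputable def JJ : Ideal At where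
  carrier := {a | (∀ (Y : FM) (y : Ph Y), a • y = 0) ∧ ∀ (Y : FM) (y : XX Y), a • y = 0}
  add_mem' := fun ha hb => ⟨fun Y y => by rw [add_smul, ha.1, hb.1, add_zero],
    fun Y y => by rw [add_smul, ha.2, hb.2, add_zero]⟩
  zero_mem' := ⟨fun _ _ => zero_smul _ _, fun _ _ => zero_smul _ _⟩
  smul_mem' := fun c a ha => ⟨fun Y y => by rw [smul_eq_mul, mul_smul, ha.1, smul_zero],
    fun Y y => by rw [smul_eq_mul, mul_smul, ha.2, smul_zero]⟩

instance : JJ.IsTwoSided := ⟨fun b ha => ⟨fun Y y => by rw [mul_smul, ha.1],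
  fun Y y => by rw [mul_smul, ha.2]⟩⟩

instance (Y : FM) : Kil JJ (Ph Y) := ⟨fun _ ha y => ha.1 Y y⟩
instance (Y : FM) : Kil JJ (XX Y) := ⟨fun _ ha y => ha.2 Y y⟩

noncomputable def colM (j : Fin 5) (y : II → U) : Matrix II II U :=
  Matrix.of fun κ => Sum.elim (fun i => if i = j then y κ else 0) fun q =>
    Sum.elim (fun _ => 0) (fun p => if q.1 = j then Del rhoW (y (inl p.1)) p.2 q.2 else 0) κ

noncomputable def colE (j : Fin 5) (y : Pt (Fr j)) : At := ⟨colM j y.1, by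
  refine ⟨?_, fun i q => rfl, fun p q => ?_⟩
  · rintro κ (i | q)
    · change (if i = j then y.1 κ else 0) ∈ _
      split_ifs with h
      · subst h; exact y.2 κ
      · exact zero_mem _
    · rcases κ with k | p
      · exact zero_mem _
      · change (if q.1 = j then Del rhoW (y.1 (inl p.1)) p.2 q.2 else 0) ∈ _
        split_ifs with h
        · subst h
          rw [lev_inr, lev_inr, Ud_shift]
          exact Del_mem_Ud _ (y.2 (inl p.1)) _ _
        · exact zero_mem _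
  · change (if q.1 = j then Del rhoW (y.1 (inl p.1)) p.2 q.2 else 0) =
      Del rhoW (if q.1 = j then y.1 (inl p.1) else 0) p.2 q.2
    split_ifs <;> simp⟩

lemma colE_inl (j : Fin 5) (y : Pt (Fr j)) (κ : II) (i : Fin 5) :
    (colE j y).1 κ (inl i) = if i = j then y.1 κ else 0 := rfl

noncomputable def col (j : Fin 5) : Pt (Fr j) →ₗ[At] At where
  toFun := colE j
  map_add' x y := At.ext' fun κ i => by
    change _ = (colE j x).1 κ (inl i) + (colE j y).1 κ (inl i)
    simp only [colE_inl, Psi.add_apply]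
    split_ifs <;> simp
  map_smul' a y := At.ext' fun κ i => by
    change _ = (a.1 * (colE j y).1) κ (inl i)
    rw [Matrix.mul_apply]
    simp only [colE_inl, Psi.smul_apply]
    split_ifs
    · rfl
    · simp

lemma col_inl (j : Fin 5) (y : Pt (Fr j)) (κ : II) (i : Fin 5) :
    (col j y).1 κ (inl i) = if i = j then y.1 κ else 0 := rfl

lemma col_nu (j : Fin 5) (w : XX (G rhoW (Fr j))) : col j (nu _ w) ∈ JJ := by
  refine ⟨fun Y y => ?_, fun Y y => ?_⟩
  · obtain ⟨y, rfl⟩ := Submodule.Quotient.mk_surjective _ y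
    rw [← Submodule.Quotient.mk_smul, Submodule.Quotient.mk_eq_zero]
    refine ⟨⟨fun k t => (w.1 k t : U) • y.1 (inl j), fun k t => Y.Ud_smul (w.2 k t) (y.2 (inl j))⟩, ?_⟩
    ext (i | ⟨k, s⟩)
    · rw [Pt.smul_inl]; simp [col_inl]
    · rw [Pt.smul_inr]
      simp [col_inl, omL_apply, Finset.sum_smul, mul_smul, add_smul]
  · ext i
    rw [XX.smul_apply]; simp [col_inl]

noncomputable def sing {Y : FM} (j : Fin 5) (g : Y.Y) (hg : g ∈ Y.F j) : Pt Y :=
  ⟨fun κ => if κ = inl j then g else 0, fun κ => by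
    dsimp only
    split_ifs with h
    · subst h; exact hg
    · exact zero_mem _⟩

lemma col_sing {Y : FM} (j : Fin 5) (g : Y.Y) (hg : g ∈ Y.F j) (x : Pt (Fr j)) (κ : II) :
    (col j x • sing j g hg).1 κ = (x.1 κ : U) • g := by
  rw [Psi.smul_apply]
  simp [sing, col_inl]

abbrev SS : Type := XX (Fr 4)

structure Good (i j : ℕ) (Y : FM) : Prop where
  pd : PD JJ (Ph Y) (i + 1)
  fin : Module.Finite At (Ph Y)
  van : i + j < 4 → Van JJ SS (Ph Y)
  nv : i + j = 4 → NV JJ SS (Ph Y) i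

lemma good_free (j : Fin 5) {Y : FM} (h : Free j Y) (hne : ∃ y ∈ Y.F j, y ≠ 0) : Good 0 j Y := by
  obtain ⟨ι, _, π, g, hg, hs⟩ := h
  have key : ∀ y : Pt Y, ∑ i, (col j ∘ₗ Psi.map WI (π i)) y •
      (Submodule.Quotient.mk (sing j (g i) (hg i)) : Ph Y) = (LinearMap.range (nu Y)).mkQ y := by
    intro y
    have : ∑ i, (col j ∘ₗ Psi.map WI (π i)) y • sing j (g i) (hg i) = y := by
      ext κ
      simp only [Psi.sum_apply, LinearMap.comp_apply, col_sing, Psi.map_apply, hs]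
    conv_rhs => rw [← this]
    simp only [map_sum, map_smul, Submodule.mkQ_apply]
  have hpd : PD JJ (Ph Y) 1 := by
    refine pd_free (LinearMap.range (nu Y)).mkQ (Submodule.mkQ_surjective _)
      (fun i => col j ∘ₗ Psi.map WI (π i)) (fun i y hy => ?_) _ key
    obtain ⟨w, rfl⟩ := (Submodule.Quotient.mk_eq_zero _).1 hy
    rw [LinearMap.comp_apply, nu_nat]
    exact col_nu j _
  refine ⟨hpd, ?_, fun hj => van_of_proj hpd fun φ => ?_, fun hj => ?_⟩
  · refine Module.Finite.of_surjective (Fintype.linearCombination At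
      (fun i => (Submodule.Quotient.mk (sing j (g i) (hg i)) : Ph Y))) fun y => ?_
    obtain ⟨y, rfl⟩ := Submodule.mkQ_surjective _ y
    exact ⟨_, key y⟩
  · refine LinearMap.ext fun y => ?_
    obtain ⟨y, rfl⟩ := Submodule.mkQ_surjective _ y
    rw [← key, map_sum, LinearMap.zero_apply]
    refine Finset.sum_eq_zero fun i _ => ?_
    rw [map_smul]
    generalize φ _ = s
    ext k
    have h0 : s.1 j = 0 := by
      have := s.2 j
      change _ ∈ Ud j 4 at this
      rw [Ud_of_lt (by omega)] at this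
      exact (Submodule.mem_bot _).1 this
    rw [XX.smul_apply]
    simp [col_inl, h0]
  · obtain rfl : j = 4 := Fin.ext (by simpa using hj)
    obtain ⟨y, hy, hy0⟩ := hne
    have : ∃ i, (π i).lin y ≠ 0 := by
      by_contra hc
      push Not at hc
      apply hy0
      rw [← hs y]
      simp [hc]
    obtain ⟨i, hi⟩ := this
    refine nv_zero (Psi.map WX (π i) ∘ₗ prP Y) fun h0 => hi ?_
    have := LinearMap.congr_fun h0 (Submodule.Quotient.mk (sing 4 y hy))
    have := congrFun (congrArg Subtype.val this) (4 : Fin 5)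
    simpa [sing] using this

section

variable {Y1 Y2 Y3 : FM} {f : FHom Y1 Y2} {g : FHom Y2 Y3}

lemma SES.ph_exact (h : SES f g) : Exact (Phmap f) (Phmap g) :=
  cok_exact _ _ ((h.G rhoW).psi_surj WX) (h.psi_exact WI)

lemma SES.ph_surj (h : SES f g) : Surjective (Phmap g) := cok_surj _ (h.psi_surj WI)

lemma SES.ph_inj (h : SES f g) (h3 : Injective (omL Y3.Y)) : Injective (Phmap f) :=
  cok_inj _ (nu_nat g) ((h.G rhoW).psi_exact WX) (h.psi_exact WI) (Psi.map_inj WI h.inj) (nu_inj h3)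

lemma good_step (h : SES f g) (h3 : Injective (omL Y3.Y)) {i j : ℕ} (h1 : Good i (j + 1) Y1)
    (h2 : Good i j Y2) : Good (i + 1) j Y3 where
  pd := pd3 h.ph_exact (h.ph_inj h3) h.ph_surj h1.pd (h2.pd.mono (by omega))
  fin := haveI := h2.fin; Module.Finite.of_surjective _ h.ph_surj
  van := fun hj => van3 h.ph_exact (h.ph_inj h3) h.ph_surj (h1.van (by omega)) (h2.van (by omega))
  nv := fun hj => nv3 h.ph_exact (h.ph_inj h3) h.ph_surj (h1.nv (by omega)) (h2.van (by omega))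

end

section Chain

variable {ι : Type} [Fintype ι] [DecidableEq ι] [Nonempty ι] (ρ : U →ₐ[ℂ] Matrix ι ι ℂ)

lemma good0 {j : ℕ} (hj : j ≤ 4) : Good 0 j (G ρ (Q ⊥ j)) :=
  good_free ⟨j, by omega⟩ (free_G_Q ρ j) (exists_ne_G_Q ρ j)

omit [Nonempty ι] in
lemma goodS {I' I I'' : Submodule U U} {x : U} (h : Step I' I I'' x) (hz : ZI I'') {i j : ℕ}
    (h1 : Good i (j + 1) (G ρ (Q I' (j + 1)))) (h2 : Good i j (G ρ (Q I j))) :
    Good (i + 1) j (G ρ (Q I'' j)) := by
  obtain ⟨f, g, hs⟩ := h.ses j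
  exact good_step (hs.G ρ) (hz.zf.G ρ).omInj h1 h2

lemma good1 (α : ℂ) {j : ℕ} (hj : j ≤ 3) : Good 1 j (G ρ (Q (I1 α) j)) :=
  goodS ρ (step1 α) (zi1 α) (good0 ρ (by omega)) (good0 ρ (by omega))

lemma good2 (α : ℂ) {j : ℕ} (hj : j ≤ 2) : Good 2 j (G ρ (Q (I2 α) j)) :=
  goodS ρ (step2 α) (zi2 α) (good1 ρ _ (by omega)) (good1 ρ _ (by omega))

lemma good3 {j : ℕ} (hj : j ≤ 1) : Good 3 j (G ρ (Q I3 j)) :=
  goodS ρ step3 zi3 (good2 ρ _ (by omega)) (good2 ρ _ (by omega))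

end Chain

end Crest.Agent.H0268
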