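import Crest.Agent.H0268.PBW

set_option autoImplicit false

namespace Crest.Agent.H0268

open Function

/-- filtered `U`-modules -/
structure FM where
  Y : Type
  [acg : AddCommGroup Y]
  [mod : Module U Y]
  F : ℕ → AddSubgroup Y
  smul_mem : ∀ {a i : ℕ} {u : U} {y : Y}, u ∈ Fil a → y ∈ F i → u • y ∈ F (a + i)

attribute [instance] FM.acg FM.mod

lemma FM.Ud_smul (Y : FM) {a i : ℕ} {u : U} {y : Y.Y} (hu : u ∈ Ud a i) (hy : y ∈ Y.F i) :
    u • y ∈ Y.F a := by
  rcases mem_Ud.1 hu with rfl | ⟨x, rfl, hx⟩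
  · rw [zero_smul]; exact zero_mem _
  · rw [add_comm]; exact Y.smul_mem hx hy

lemma FM.F_succ (Y : FM) {i : ℕ} {y : Y.Y} (hy : y ∈ Y.F i) : y ∈ Y.F (i + 1) := by
  simpa [add_comm] using Y.smul_mem (one_mem_Fil 1) hy

structure FHom (Y Y' : FM) where
  lin : Y.Y →ₗ[U] Y'.Y
  mem : ∀ i y, y ∈ Y.F i → lin y ∈ Y'.F i

structure SES {Y1 Y2 Y3 : FM} (f : FHom Y1 Y2) (g : FHom Y2 Y3) : Prop where
  inj : Injective f.lin
  comp : ∀ y, g.lin (f.lin y) = 0
  ex : ∀ i y, y ∈ Y2.F i → g.lin y = 0 → ∃ x ∈ Y1.F i, f.lin x = y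
  surj : ∀ i y, y ∈ Y3.F i → ∃ x ∈ Y2.F i, g.lin x = y

section G

variable {ι : Type} [Fintype ι] [DecidableEq ι] (ρ : U →ₐ[ℂ] Matrix ι ι ℂ)

/-- tensor product with a matrix representation -/
def GY (_ρ : U →ₐ[ℂ] Matrix ι ι ℂ) (Y : Type) : Type := ι → Y

variable {Y Y' : Type} [AddCommGroup Y] [Module U Y] [AddCommGroup Y'] [Module U Y']

instance : AddCommGroup (GY ρ Y) := Pi.addCommGroup

variable {ρ}

omit [AddCommGroup Y] [Module U Y] in
@[ext] lemma GY.ext {x y : GY ρ Y} (h : ∀ k, x k = y k) : x = y := funext h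

omit [Module U Y] in
@[simp] lemma GY.add_apply (x y : GY ρ Y) (k : ι) : (x + y) k = x k + y k := rfl
omit [Module U Y] in
@[simp] lemma GY.sub_apply (x y : GY ρ Y) (k : ι) : (x - y) k = x k - y k := rfl
omit [Module U Y] in
@[simp] lemma GY.neg_apply (x : GY ρ Y) (k : ι) : (-x) k = -x k := rfl
omit [Module U Y] in
@[simp] lemma GY.zero_apply (k : ι) : (0 : GY ρ Y) k = 0 := rfl
omit [Module U Y] in
@[simp] lemma GY.sum_apply {κ : Type} (s : Finset κ) (x : κ → GY ρ Y) (k : ι) :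
    (∑ i ∈ s, x i) k = ∑ i ∈ s, x i k := Finset.sum_apply k s x

variable (ρ)

noncomputable instance : Module U (GY ρ Y) where
  smul u y := fun k => ∑ i, Del ρ u k i • y i
  one_smul y := by
    ext k
    change ∑ i, Del ρ 1 k i • y i = y k
    simp [Matrix.one_apply]
  mul_smul u v y := by
    ext k
    change ∑ i, Del ρ (u * v) k i • y i = ∑ i, Del ρ u k i • ∑ j, Del ρ v i j • y j
    simp only [map_mul, Matrix.mul_apply, Finset.sum_smul, Finset.smul_sum, mul_smul]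
    exact Finset.sum_comm
  smul_zero u := by
    ext k
    change ∑ i, Del ρ u k i • (0 : Y) = 0
    simp
  smul_add u x y := by
    ext k
    change ∑ i, Del ρ u k i • (x i + y i) = ∑ i, Del ρ u k i • x i + ∑ i, Del ρ u k i • y i
    simp [Finset.sum_add_distrib]
  add_smul u v y := by
    ext k
    change ∑ i, Del ρ (u + v) k i • y i = ∑ i, Del ρ u k i • y i + ∑ i, Del ρ v k i • y i
    simp [Finset.sum_add_distrib, add_smul]
  zero_smul y := by
    ext k
    change ∑ i, Del ρ 0 k i • y i = 0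
    simp

variable {ρ}

lemma GY.smul_apply (u : U) (y : GY ρ Y) (k : ι) : (u • y) k = ∑ i, Del ρ u k i • y i := rfl

lemma GY.alg_smul (c : ℂ) (y : GY ρ Y) (k : ι) :
    (algebraMap ℂ U c • y) k = algebraMap ℂ U c • y k := by
  simp [GY.smul_apply, Del_alg]

lemma GY.gen_smul (g : Fin 4) (y : GY ρ Y) (k : ι) :
    (gen g • y) k = gen g • y k + ∑ i, algebraMap ℂ U (ρ (gen g) k i) • y i := by
  simp [GY.smul_apply, Del_gen, add_smul, Finset.sum_add_distrib]

variable (ρ)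

def GY.sub (D : AddSubgroup Y) : AddSubgroup (GY ρ Y) where
  carrier := {y | ∀ k, y k ∈ D}
  add_mem' := fun ha hb k => add_mem (ha k) (hb k)
  zero_mem' := fun _ => zero_mem _
  neg_mem' := fun ha k => neg_mem (ha k)

noncomputable def GY.map (f : Y →ₗ[U] Y') : GY ρ Y →ₗ[U] GY ρ Y' where
  toFun y := fun k => f (y k)
  map_add' x y := by ext k; simp
  map_smul' u y := by ext k; simp [GY.smul_apply]

@[simp] lemma GY.map_apply (f : Y →ₗ[U] Y') (y : GY ρ Y) (k : ι) : GY.map ρ f y k = f (y k) := rfl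

@[reducible] noncomputable def G (Y : FM) : FM where
  Y := GY ρ Y.Y
  F i := GY.sub ρ (Y.F i)
  smul_mem := fun hu hy k => by
    rw [GY.smul_apply]
    exact sum_mem fun i _ => Y.smul_mem (Del_mem_Fil ρ hu k i) (hy i)

noncomputable def Gmap {Y Y' : FM} (f : FHom Y Y') : FHom (G ρ Y) (G ρ Y') where
  lin := GY.map ρ f.lin
  mem := fun i y hy k => f.mem i _ (hy k)

lemma SES.G {Y1 Y2 Y3 : FM} {f : FHom Y1 Y2} {g : FHom Y2 Y3} (h : SES f g) :
    SES (Gmap ρ f) (Gmap ρ g) where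
  inj := fun x y hxy => funext fun k => h.inj (congrFun hxy k)
  comp := fun y => funext fun k => h.comp (y k)
  ex := fun i y hy h0 => by
    choose x hx hx' using fun k => h.ex i (y k) (hy k) (congrFun h0 k)
    exact ⟨x, hx, funext hx'⟩
  surj := fun i y hy => by
    choose x hx hx' using fun k => h.surj i (y k) (hy k)
    exact ⟨x, hx, funext hx'⟩

end G

@[reducible] def up (Y : FM) : FM where
  Y := Y.Y
  F i := Y.F (i + 1)
  smul_mem := fun hu hy => by rw [add_assoc]; exact Y.smul_mem hu hy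

/-- the intertwiner acting on `W ⊗ Y` -/
noncomputable def omL (Y : Type) [AddCommGroup Y] [Module U Y] : GY rhoW Y →ₗ[U] GY rhoW Y where
  toFun w := fun s => ∑ t, om s t • w t
  map_add' x y := by ext k; simp [Finset.sum_add_distrib]
  map_smul' u y := by
    ext k
    simp only [GY.smul_apply, RingHom.id_apply, Finset.smul_sum, ← mul_smul]
    rw [Finset.sum_comm, Finset.sum_comm (s := Finset.univ) (t := Finset.univ)
      (f := fun i j => (Del rhoW u k i * om i j) • y j)]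
    refine Finset.sum_congr rfl fun j _ => ?_
    rw [← Finset.sum_smul, ← Finset.sum_smul, ← Matrix.mul_apply, ← Matrix.mul_apply, om_comm]

lemma omL_apply {Y : Type} [AddCommGroup Y] [Module U Y] (w : GY rhoW Y) (s : Fin 2) :
    omL Y w s = ∑ t, om s t • w t := rfl

lemma omL_mem (Y : FM) {i : ℕ} {w : GY rhoW Y.Y} (hw : ∀ s, w s ∈ Y.F i) (s : Fin 2) :
    omL Y.Y w s ∈ Y.F (i + 1) := by
  rw [omL_apply, add_comm]
  exact sum_mem fun t _ => Y.smul_mem (om_mem s t) (hw t)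

lemma omL_map {Y Y' : Type} [AddCommGroup Y] [Module U Y] [AddCommGroup Y'] [Module U Y']
    (f : Y →ₗ[U] Y') (w : GY rhoW Y) (s : Fin 2) :
    f (omL Y w s) = omL Y' (GY.map rhoW f w) s := by
  simp [omL_apply]

/-- `z`-degree filtrations -/
def ZF (Y : Type) [AddCommGroup Y] [Module U Y] : Prop :=
  ∃ D : ℕ → AddSubgroup Y, (∀ y ∈ D 0, y = 0) ∧ Monotone D ∧ (∀ y, ∃ n, y ∈ D n) ∧
    (∀ n (c : ℂ), ∀ y ∈ D n, algebraMap ℂ U c • y ∈ D n) ∧
    (∀ n g, g ≠ 3 → ∀ y ∈ D n, gen g • y ∈ D n) ∧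
    (∀ n, ∀ y ∈ D (n + 1), gen 3 • y ∈ D (n + 1) → y ∈ D n)

lemma ZF.G {ι : Type} [Fintype ι] [DecidableEq ι] (ρ : U →ₐ[ℂ] Matrix ι ι ℂ) {Y : Type}
    [AddCommGroup Y] [Module U Y] (h : ZF Y) : ZF (GY ρ Y) := by
  obtain ⟨D, h0, hm, he, hc, hg, hz⟩ := h
  refine ⟨fun n => GY.sub ρ (D n), fun y hy => GY.ext fun k => h0 _ (hy k),
    fun a b hab y hy k => hm hab (hy k), fun y => ?_, fun n c y hy k => ?_,
    fun n g hg' y hy k => ?_, fun n y hy hy' k => ?_⟩
  · choose n hn using fun k => he (y k)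
    exact ⟨Finset.univ.sup n, fun k => hm (Finset.le_sup (Finset.mem_univ k)) (hn k)⟩
  · rw [GY.alg_smul]; exact hc _ _ _ (hy k)
  · rw [GY.gen_smul]
    exact add_mem (hg _ _ hg' _ (hy k)) (sum_mem fun i _ => hc _ _ _ (hy i))
  · refine hz n _ (hy k) ?_
    have h1 := hy' k
    rw [GY.gen_smul] at h1
    simpa using sub_mem h1 (sum_mem (t := Finset.univ) fun i _ => hc _ (ρ (gen 3) k i) _ (hy i))

lemma ZF.omInj {Y : Type} [AddCommGroup Y] [Module U Y] (h : ZF Y) : Injective (omL Y) := by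
  obtain ⟨D, h0, hm, he, hc, hg, hz⟩ := h
  rw [injective_iff_map_eq_zero]
  intro w hw
  have : ∀ n, (∀ s, w s ∈ D n) → w = 0 := by
    intro n
    induction n with
    | zero => intro h; exact GY.ext fun s => h0 _ (h s)
    | succ n ih =>
      intro h
      apply ih
      have e0 := congrFun hw 0
      have e1 := congrFun hw 1
      simp only [omL_apply, Fin.sum_univ_two, om, Matrix.of_apply, Matrix.cons_val',
        Matrix.cons_val_zero, Matrix.cons_val_one, Matrix.cons_val_fin_one, add_smul, sub_smul,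
        two_smul, GY.zero_apply] at e0 e1
      intro s
      refine hz n _ (h s) ?_
      fin_cases s
      · have : gen 3 • w 0 = -(gen 2 • w 0 + (w 0 + w 0) + (gen 1 • w 1 + gen 1 • w 1)) := by
          rw [eq_neg_iff_add_eq_zero, ← e0]; abel
        exact this ▸ neg_mem (add_mem (add_mem (hg _ 2 (by decide) _ (h 0)) (add_mem (h 0) (h 0)))
          (add_mem (hg _ 1 (by decide) _ (h 1)) (hg _ 1 (by decide) _ (h 1))))
      · have : gen 3 • w 1 = -(gen 0 • w 0 + gen 0 • w 0 - gen 2 • w 1 + (w 1 + w 1)) := by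
          rw [eq_neg_iff_add_eq_zero, ← e1]; abel
        exact this ▸ neg_mem (add_mem (sub_mem (add_mem (hg _ 0 (by decide) _ (h 0))
          (hg _ 0 (by decide) _ (h 0))) (hg _ 2 (by decide) _ (h 1))) (add_mem (h 1) (h 1)))
  obtain ⟨a, ha⟩ := he (w 0)
  obtain ⟨b, hb⟩ := he (w 1)
  refine this (max a b) fun s => ?_
  fin_cases s
  · exact hm (le_max_left a b) ha
  · exact hm (le_max_right a b) hb

lemma ZI.zf {I : Submodule U U} (h : ZI I) : ZF (U ⧸ I) := by
  obtain ⟨D, h0, hm, he, hg, hz⟩ := h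
  have hmem : ∀ n u, I.mkQ u ∈ (D n).toAddSubgroup.map I.mkQ.toAddMonoidHom ↔ u ∈ D n := by
    intro n u
    constructor
    · rintro ⟨v, hv, huv⟩
      have h1 : v - u ∈ I := (Submodule.Quotient.eq I).1 huv
      simpa using sub_mem hv (hm (Nat.zero_le n) ((h0 _).2 h1))
    · intro hu; exact ⟨u, hu, rfl⟩
  refine ⟨fun n => (D n).toAddSubgroup.map I.mkQ.toAddMonoidHom, ?_, ?_, fun y => ?_,
    fun n c y hy => ?_, fun n g hg' y hy => ?_, fun n y hy hy' => ?_⟩
  · rintro _ ⟨u, hu, rfl⟩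
    exact (Submodule.Quotient.mk_eq_zero I).2 ((h0 u).1 hu)
  · intro a b hab
    exact AddSubgroup.map_mono (hm hab)
  · obtain ⟨u, rfl⟩ := I.mkQ_surjective y
    obtain ⟨n, hn⟩ := he u
    exact ⟨n, (hmem n u).2 hn⟩
  · obtain ⟨u, rfl⟩ := I.mkQ_surjective y
    rw [← map_smul, hmem, smul_eq_mul, ← Algebra.smul_def]
    exact Submodule.smul_mem _ _ ((hmem n u).1 hy)
  · obtain ⟨u, rfl⟩ := I.mkQ_surjective y
    rw [← map_smul, hmem]
    exact hg n g hg' u ((hmem n u).1 hy)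
  · obtain ⟨u, rfl⟩ := I.mkQ_surjective y
    rw [← map_smul, hmem] at hy'
    exact (hmem n u).2 (hz n u hy')

@[reducible] noncomputable def Q (I : Submodule U U) (j : ℕ) : FM where
  Y := U ⧸ I
  F a := (Ud a j).toAddSubgroup.map I.mkQ.toAddMonoidHom
  smul_mem := by
    rintro a i u _ hu ⟨v, hv, rfl⟩
    exact ⟨u * v, Fil_mul_Ud hu hv, rfl⟩

@[reducible] noncomputable def Fr (j : ℕ) : FM where
  Y := U
  F a := (Ud a j).toAddSubgroup
  smul_mem := fun hu hv => Fil_mul_Ud hu hv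

lemma Step.ses {I' I I'' : Submodule U U} {x : U} (h : Step I' I I'' x) (j : ℕ) :
    ∃ (f : FHom (Q I' (j + 1)) (Q I j)) (g : FHom (Q I j) (Q I'' j)), SES f g := by
  have hx : x ∈ Ud (j + 1) j := mem_Ud.2 (Or.inr ⟨1, rfl, h.hx⟩)
  refine ⟨⟨I'.mapQ I (LinearMap.toSpanSingleton U U x) h.map, ?_⟩,
    ⟨I.mapQ I'' LinearMap.id h.le, ?_⟩, ?_, ?_, ?_, ?_⟩
  · rintro a _ ⟨v, hv, rfl⟩
    exact ⟨v * x, Ud_mul hv hx, rfl⟩
  · rintro a _ ⟨v, hv, rfl⟩
    exact ⟨v, hv, rfl⟩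
  · rw [injective_iff_map_eq_zero]
    intro y hy
    obtain ⟨u, rfl⟩ := I'.mkQ_surjective y
    exact (Submodule.Quotient.mk_eq_zero I').2 (h.inj u ((Submodule.Quotient.mk_eq_zero I).1 hy))
  · intro y
    obtain ⟨u, rfl⟩ := I'.mkQ_surjective y
    exact (Submodule.Quotient.mk_eq_zero I'').2 (I''.smul_mem u h.mem)
  · rintro a _ ⟨u, hu, rfl⟩ h0
    obtain ⟨v, hv, hv'⟩ := h.ex a j u hu ((Submodule.Quotient.mk_eq_zero I'').1 h0)
    exact ⟨I'.mkQ v, ⟨v, hv, rfl⟩, (Submodule.Quotient.eq I).2 hv'⟩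
  · rintro a _ ⟨u, hu, rfl⟩
    exact ⟨I.mkQ u, ⟨u, hu, rfl⟩, rfl⟩

/-- retracts of filtered free modules generated in degree `j` -/
def Free (j : ℕ) (Y : FM) : Prop :=
  ∃ (ι : Type) (_ : Fintype ι) (π : ι → FHom Y (Fr j)) (g : ι → Y.Y),
    (∀ i, g i ∈ Y.F j) ∧ ∀ y, ∑ i, (π i).lin y • g i = y

lemma Free.retract {j : ℕ} {Y Y' : FM} (h : Free j Y') (a : FHom Y Y') (b : FHom Y' Y)
    (hab : ∀ y, b.lin (a.lin y) = y) : Free j Y := by
  obtain ⟨ι, _, π, g, hg, hs⟩ := h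
  refine ⟨ι, inferInstance, fun i => ⟨(π i).lin ∘ₗ a.lin, fun k y hy => (π i).mem k _ (a.mem k y hy)⟩,
    fun i => b.lin (g i), fun i => b.mem _ _ (hg i), fun y => ?_⟩
  have := congrArg b.lin (hs (a.lin y))
  simpa [hab] using this

lemma free_G_Fr {ι : Type} [Fintype ι] [DecidableEq ι] (ρ : U →ₐ[ℂ] Matrix ι ι ℂ) (j : ℕ) :
    Free j (G ρ (Fr j)) := by
  let g : ι → GY ρ U := fun i => (Pi.single i 1 : ι → U)
  let θ : (ι → U) →ₗ[U] GY ρ U := Fintype.linearCombination U g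
  have hθ : ∀ w k, θ w k = ∑ i, Del ρ (w i) k i := by
    intro w k
    simp [θ, g, Fintype.linearCombination_apply, GY.smul_apply, Pi.single_apply]
  have hkey : ∀ a b (w : ι → U), (∀ i, w i ∈ Ud a b) → ∀ k, θ w k - w k ∈ Ud a (b + 1) := by
    intro a b w hw k
    have : θ w k - w k = ∑ i, (Del ρ (w i) k i - if k = i then w i else 0) := by
      simp [hθ, Finset.sum_sub_distrib]
    rw [this]
    exact Submodule.sum_mem _ fun i _ => Del_sub_Ud ρ (hw i) k i
  have hsurj : ∀ a n b, a < b + n → ∀ y : GY ρ U, (∀ i, y i ∈ Ud a b) →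
      ∃ w : ι → U, (∀ i, w i ∈ Ud a b) ∧ θ w = y := by
    intro a n
    induction n with
    | zero =>
      intro b hb y hy
      refine ⟨0, fun _ => zero_mem _, ?_⟩
      rw [map_zero]
      ext k
      have := hy k
      rw [Ud_of_lt (by omega)] at this
      exact ((Submodule.mem_bot _).1 this).symm
    | succ n ih =>
      intro b hb y hy
      obtain ⟨w, hw, hw'⟩ := ih (b + 1) (by omega) (θ y - y) (hkey a b y hy)
      refine ⟨fun i => y i - w i, fun i => sub_mem (hy i) (Ud_mono (by omega) (hw i)), ?_⟩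
      have : θ (fun i => y i - w i) = θ y - θ w := map_sub θ y w
      rw [this, hw', sub_sub_cancel]
  have hall : ∀ w : ι → U, ∃ a, ∀ i, w i ∈ Ud a 0 := by
    intro w
    choose n hn using fun k => exists_Fil (w k)
    exact ⟨Finset.univ.sup n, fun k => by
      rw [Ud_zero]; exact Fil_mono (Finset.le_sup (Finset.mem_univ k)) (hn k)⟩
  have hinj : Injective θ := by
    rw [injective_iff_map_eq_zero]
    intro w hw
    obtain ⟨a, ha⟩ := hall w
    have : ∀ b i, w i ∈ Ud a b := by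
      intro b
      induction b with
      | zero => exact ha
      | succ b ih =>
        intro i
        have := hkey a b w ih i
        rw [hw] at this
        simpa using this
    ext i
    have := this (a + 1) i
    rw [Ud_of_lt (by omega)] at this
    exact (Submodule.mem_bot _).1 this
  have hsurj' : Surjective θ := by
    intro y
    obtain ⟨a, ha⟩ := hall y
    obtain ⟨w, _, hw⟩ := hsurj a (a + 1) 0 (by omega) y ha
    exact ⟨w, hw⟩
  let e := LinearEquiv.ofBijective θ ⟨hinj, hsurj'⟩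
  refine ⟨ι, inferInstance, fun i => ⟨LinearMap.proj i ∘ₗ e.symm.toLinearMap, fun a y hy => ?_⟩, g,
    fun i k => ?_, fun y => ?_⟩
  · obtain ⟨w, hw, rfl⟩ := hsurj a (a + 1) j (by omega) y hy
    have : e.symm (θ w) = w := e.symm_apply_apply w
    change e.symm (θ w) i ∈ Ud a j
    rw [this]; exact hw i
  · change (Pi.single i 1 : ι → U) k ∈ Ud j j
    rw [Pi.single_apply]
    split_ifs
    · exact one_mem_Ud j
    · exact zero_mem _
  · exact e.apply_symm_apply y

lemma free_G_Q {ι : Type} [Fintype ι] [DecidableEq ι] (ρ : U →ₐ[ℂ] Matrix ι ι ℂ) (j : ℕ) :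
    Free j (G ρ (Q ⊥ j)) := by
  let a : FHom (Q ⊥ j) (Fr j) := ⟨Submodule.liftQ ⊥ LinearMap.id bot_le, by
    rintro i _ ⟨v, hv, rfl⟩; exact hv⟩
  let b : FHom (Fr j) (Q ⊥ j) := ⟨Submodule.mkQ ⊥, fun i v hv => ⟨v, hv, rfl⟩⟩
  refine (free_G_Fr ρ j).retract (Gmap ρ a) (Gmap ρ b) fun y => funext fun k => ?_
  obtain ⟨u, hu⟩ := Submodule.mkQ_surjective _ (y k)
  change b.lin (a.lin (y k)) = y k
  rw [← hu]; rfl

lemma exists_ne_G_Q {ι : Type} [Fintype ι] [DecidableEq ι] [Nonempty ι]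
    (ρ : U →ₐ[ℂ] Matrix ι ι ℂ) (j : ℕ) : ∃ y ∈ (G ρ (Q ⊥ j)).F j, y ≠ 0 := by
  refine ⟨fun _ => Submodule.mkQ ⊥ 1, fun k => ⟨1, one_mem_Ud j, rfl⟩, fun h => ?_⟩
  have := congrFun h (Classical.arbitrary ι)
  exact U_one_ne_zero ((Submodule.mem_bot _).1 ((Submodule.Quotient.mk_eq_zero ⊥).1 this))

/-- trivial filtration -/
@[reducible] def Tr (V : Type) [AddCommGroup V] [Module U V] : FM where
  Y := V
  F _ := ⊤
  smul_mem := fun _ _ => trivial

lemma ses_last (V : Type) [AddCommGroup V] [Module U V] [Module ℂ V] [IsScalarTower ℂ U V]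
    {ι : Type} [Fintype ι] [DecidableEq ι] (b : Module.Basis ι ℂ V) :
    ∃ (ρ : U →ₐ[ℂ] Matrix ι ι ℂ) (f : FHom (G ρ (Q I3 1)) (G ρ (Q I3 0)))
      (g : FHom (G ρ (Q I3 0)) (Tr V)), SES f g := by
  haveI : SMulCommClass U ℂ V := ⟨fun u c v => by
    rw [← algebraMap_smul U c, ← algebraMap_smul U c, ← mul_smul, ← mul_smul, Algebra.commutes]⟩
  let act : U →ₐ[ℂ] Module.End ℂ V := Algebra.lsmul ℂ ℂ V
  let ρ : U →ₐ[ℂ] Matrix ι ι ℂ := (LinearMap.toMatrixAlgEquiv b).toAlgHom.comp act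
  have hρ : ∀ u k i, ρ u k i = b.repr (u • b i) k := fun u k i => by
    simp [ρ, act, LinearMap.toMatrixAlgEquiv_apply]
  obtain ⟨f, g, h⟩ := step4.ses 0
  have h' := h.G ρ
  let φ0 : V →+ GY ρ (U ⧸ I4) :=
    { toFun := fun v k => I4.mkQ (algebraMap ℂ U (b.repr v k))
      map_zero' := by ext k; simp
      map_add' := fun x y => by ext k; simp }
  have hφ0 : ∀ v k, φ0 v k = I4.mkQ (algebraMap ℂ U (b.repr v k)) := fun _ _ => rfl
  let φ : V →ₗ[U] GY ρ (U ⧸ I4) := linOfGen φ0 (fun c v => by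
      ext k
      rw [GY.alg_smul, hφ0, hφ0, ← map_smul, algebraMap_smul]
      simp)
    (fun g v => by
      ext k
      rw [GY.gen_smul]
      simp only [hφ0, ← map_smul, smul_eq_mul, ← map_mul, ← map_sum]
      have h1 : I4.mkQ (gen g * algebraMap ℂ U (b.repr v k)) = 0 := by
        rw [← Algebra.commutes]
        exact (Submodule.Quotient.mk_eq_zero _).2 (I4.smul_mem _ (gen_mem_I4 g))
      rw [h1, zero_add]
      congr 2
      conv_lhs => rw [← b.sum_repr v]
      simp only [hρ, Finset.smul_sum, smul_comm (gen g), map_sum, map_smul, Finsupp.finset_sum_apply,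
        Finsupp.smul_apply, smul_eq_mul, mul_comm])
  have hφ : ∀ v k, φ v k = I4.mkQ (algebraMap ℂ U (b.repr v k)) := fun _ _ => rfl
  have hinj : Injective φ := by
    rw [injective_iff_map_eq_zero]
    intro v hv
    refine b.ext_elem fun k => ?_
    have := congrFun hv k
    rw [hφ] at this
    rw [alg_mem_I4 ((Submodule.Quotient.mk_eq_zero _).1 this)]
    simp
  have hsurj : Surjective φ := by
    intro y
    choose u hu using fun k => I4.mkQ_surjective (y k)
    choose c hc using fun k => exists_sub_mem_I4 (u k)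
    refine ⟨b.equivFun.symm c, GY.ext fun k => ?_⟩
    rw [hφ, ← hu k]
    have : b.repr (b.equivFun.symm c) k = c k := by
      rw [← b.equivFun_apply, LinearEquiv.apply_symm_apply]
    rw [this]
    exact ((Submodule.Quotient.eq _).2 (hc k)).symm
  let e := LinearEquiv.ofBijective φ ⟨hinj, hsurj⟩
  refine ⟨ρ, Gmap ρ f, ⟨e.symm.toLinearMap ∘ₗ (Gmap ρ g).lin, fun _ _ _ => trivial⟩, h'.inj,
    fun y => ?_, fun i y hy h0 => h'.ex i y hy ?_, fun i v _ => ?_⟩
  · change e.symm ((Gmap ρ g).lin ((Gmap ρ f).lin y)) = 0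
    rw [h'.comp, map_zero]
  · exact e.symm.map_eq_zero_iff.1 h0
  · obtain ⟨x, hx, hx'⟩ := h'.surj i (φ v) (fun k => ⟨algebraMap ℂ U (b.repr v k), by
      change _ ∈ Ud i 0
      rw [Ud_zero]; exact alg_mem_Fil _ _, rfl⟩)
    refine ⟨x, hx, ?_⟩
    change e.symm ((Gmap ρ g).lin x) = v
    rw [hx']
    exact e.symm_apply_apply v

end Crest.Agent.H0268
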