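import Crest.Agent.H0268.FM

set_option autoImplicit false

namespace Crest.Agent.H0268

open Function MvPolynomial

abbrev Pol : Type := MvPolynomial (Fin 2) ℂ

lemma pd_comm (p : Pol) : pderiv 1 (pderiv 0 p) = pderiv 0 (pderiv 1 p) := by
  induction p using MvPolynomial.induction_on with
  | C a => simp
  | add p q hp hq => simp [hp, hq]
  | mul_X p i hp =>
    fin_cases i <;> simp [Derivation.leibniz, hp] <;> ring

/-- the operator `X i * ∂ j` -/
noncomputable def xd (i j : Fin 2) : Module.End ℂ Pol :=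
  LinearMap.mulLeft ℂ (X i) ∘ₗ (pderiv j).toLinearMap

@[simp] lemma xd_apply (i j : Fin 2) (p : Pol) : xd i j p = X i * pderiv j p := rfl

noncomputable def actPol : U →ₐ[ℂ] Module.End ℂ Pol :=
  lift ![xd 0 1, xd 1 0, xd 0 0 - xd 1 1, xd 0 0 + xd 1 1] (by
    refine ⟨?_, ?_, ?_, fun i => ?_⟩
    · refine LinearMap.ext fun p => ?_
      simp [Derivation.leibniz, pd_comm]; ring
    · refine LinearMap.ext fun p => ?_
      simp [Derivation.leibniz, pd_comm]; ring
    · refine LinearMap.ext fun p => ?_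
      simp [Derivation.leibniz, pd_comm]; ring
    · refine LinearMap.ext fun p => ?_
      fin_cases i <;> simp [Derivation.leibniz, pd_comm] <;> ring)

noncomputable instance : Module U Pol := Module.compHom Pol actPol.toRingHom

lemma Pol.smul_def (u : U) (p : Pol) : u • p = actPol u p := rfl

instance : IsScalarTower ℂ U Pol := ⟨fun c u p => by simp [Pol.smul_def]⟩

lemma Pol.e (p : Pol) : gen 0 • p = X 0 * pderiv 1 p := by simp [Pol.smul_def, actPol]
lemma Pol.f (p : Pol) : gen 1 • p = X 1 * pderiv 0 p := by simp [Pol.smul_def, actPol]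
lemma Pol.h (p : Pol) : gen 2 • p = X 0 * pderiv 0 p - X 1 * pderiv 1 p := by
  simp [Pol.smul_def, actPol]
lemma Pol.z (p : Pol) : gen 3 • p = X 0 * pderiv 0 p + X 1 * pderiv 1 p := by
  simp [Pol.smul_def, actPol]
lemma Pol.alg (c : ℂ) (p : Pol) : algebraMap ℂ U c • p = C c * p := by
  rw [algebraMap_smul, smul_eq_C_mul]

/-- homogeneous polynomials of degree `m - 1` -/
noncomputable def VV (m : ℕ) : Submodule U Pol where
  carrier := {p | gen 3 • p + p = algebraMap ℂ U m • p}
  add_mem' := fun {a b} (ha : _ = _) (hb : _ = _) => by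
    change _ = _
    rw [smul_add, smul_add, ← ha, ← hb]; abel
  zero_mem' := by simp
  smul_mem' := fun c x (hx : _ = _) => by
    change _ = _
    rw [← mul_smul, z_comm, mul_smul, ← smul_add, hx, ← mul_smul, ← mul_smul, Algebra.commutes]

lemma mem_VV {m : ℕ} {p : Pol} :
    p ∈ VV m ↔ X 0 * pderiv 0 p + X 1 * pderiv 1 p + p = (m : Pol) * p := by
  change gen 3 • p + p = algebraMap ℂ U m • p ↔ _
  rw [Pol.z, Pol.alg, map_natCast]

lemma coeff_xd (i : Fin 2) (p : Pol) (d : Fin 2 →₀ ℕ) :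
    coeff d (X i * pderiv i p) = d i * coeff d p := by
  induction p using MvPolynomial.induction_on' with
  | monomial u a =>
    rw [X_mul_pderiv_monomial, coeff_smul, coeff_monomial]
    split_ifs with h
    · subst h; simp
    · simp
  | add p q hp hq => simp [mul_add, hp, hq]

lemma VV_coeff {m : ℕ} {p : Pol} (hp : p ∈ VV m) {d : Fin 2 →₀ ℕ} (hd : coeff d p ≠ 0) :
    d 0 + d 1 + 1 = m := by
  have := congrArg (coeff d) (mem_VV.1 hp)
  rw [coeff_add, coeff_add, coeff_xd, coeff_xd, ← map_natCast (C : ℂ →+* Pol), coeff_C_mul] at this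
  have h2 : ((d 0 + d 1 + 1 : ℕ) : ℂ) = m := by
    apply mul_right_cancel₀ hd
    push_cast
    linear_combination this
  exact_mod_cast h2

instance (m : ℕ) : Module.Finite ℂ (VV m) := by
  let φ : VV m →ₗ[ℂ] restrictTotalDegree (Fin 2) ℂ m :=
    { toFun := fun p => ⟨p.1, by
        rw [mem_restrictTotalDegree, totalDegree]
        refine Finset.sup_le fun d hd => ?_
        have := VV_coeff p.2 (mem_support_iff.1 hd)
        rw [Finsupp.sum_fintype _ _ (by simp), Fin.sum_univ_two]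
        omega⟩
      map_add' := fun _ _ => rfl
      map_smul' := fun _ _ => rfl }
  exact Module.Finite.of_injective φ fun a b h =>
    Subtype.ext (congrArg (fun x : restrictTotalDegree (Fin 2) ℂ m => x.1) h)

instance : Subsingleton (VV 0) := ⟨fun a b => by
  have : ∀ a : VV 0, a.1 = 0 := fun a => by
    ext d
    by_contra h
    have := VV_coeff a.2 h
    omega
  exact Subtype.ext ((this a).trans (this b).symm)⟩

lemma X_mul_mem {m : ℕ} {p : Pol} (hp : p ∈ VV m) (i : Fin 2) : X i * p ∈ VV (m + 1) := by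
  rw [mem_VV] at hp ⊢
  fin_cases i <;> simp [Derivation.leibniz]
  · linear_combination (X 0 : Pol) * hp
  · linear_combination (X 1 : Pol) * hp

lemma pderiv_mem {m : ℕ} {p : Pol} (hp : p ∈ VV (m + 1)) (i : Fin 2) : pderiv i p ∈ VV m := by
  rw [mem_VV] at hp ⊢
  have := congrArg (pderiv i) hp
  rw [← nsmul_eq_mul, map_nsmul, nsmul_eq_mul] at this
  fin_cases i <;> simp [Derivation.leibniz, pd_comm] at this ⊢
  · linear_combination this
  · linear_combination this

instance (m : ℕ) : Nontrivial (VV (m + 1)) := by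
  have : ∀ m : ℕ, (X 0 : Pol) ^ m ∈ VV (m + 1) := by
    intro m
    induction m with
    | zero => simp [mem_VV]
    | succ m ih => rw [pow_succ']; exact X_mul_mem ih 0
  exact ⟨⟨⟨_, this m⟩, 0, fun h => pow_ne_zero m (X_ne_zero 0) (congrArg Subtype.val h)⟩⟩

/-- `V'` is both the kernel and the cokernel of the intertwiner on `W ⊗ V` -/
def Pair (V' V : Type) [AddCommGroup V'] [Module U V'] [AddCommGroup V] [Module U V] : Prop :=
  ∃ κ : V' →ₗ[U] GY rhoW V, Injective κ ∧ (∀ w, omL V w = 0 ↔ ∃ v, κ v = w) ∧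
    (∀ v w, omL V w = κ v → v = 0) ∧ ∀ w, ∃ v w', w = κ v + omL V w'

lemma om_val {m : ℕ} (w : GY rhoW (VV m)) :
    (omL _ w 0).1 = 2 * (X 0 * pderiv 0 (w 0).1 + (w 0).1 + X 1 * pderiv 0 (w 1).1) ∧
    (omL _ w 1).1 = 2 * (X 0 * pderiv 1 (w 0).1 + X 1 * pderiv 1 (w 1).1 + (w 1).1) := by
  constructor <;>
  · simp only [omL_apply, Fin.sum_univ_two, om, Matrix.of_apply, Matrix.cons_val',
        Matrix.cons_val_zero, Matrix.cons_val_one, Matrix.cons_val_fin_one, add_smul, sub_smul,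
        two_smul, Submodule.coe_add, Submodule.coe_smul, Submodule.coe_sub, Pol.e, Pol.f, Pol.h,
        Pol.z]
    ring

lemma pair (m : ℕ) : Pair (VV m) (VV (m + 1)) := by
  let κ0 : VV m →+ GY rhoW (VV (m + 1)) :=
    { toFun := fun q => (![⟨X 1 * q.1, X_mul_mem q.2 1⟩, -⟨X 0 * q.1, X_mul_mem q.2 0⟩] :
        Fin 2 → VV (m + 1))
      map_zero' := by ext k : 1; fin_cases k <;> simp
      map_add' := fun x y => by ext k : 2; fin_cases k <;> simp <;> ring }
  have h0 : ∀ q, (κ0 q 0).1 = X 1 * q.1 := fun _ => rfl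
  have h1 : ∀ q, (κ0 q 1).1 = -(X 0 * q.1) := fun _ => rfl
  let κ : VV m →ₗ[U] GY rhoW (VV (m + 1)) := linOfGen κ0
    (fun c q => by
      ext k : 2
      rw [GY.alg_smul]
      fin_cases k <;> simp [h0, h1, -algebraMap_smul, Pol.alg] <;> ring)
    (fun g q => by
      refine GY.ext (Fin.forall_fin_two.2 ⟨Subtype.ext ?_, Subtype.ext ?_⟩) <;>
      rw [GY.gen_smul, Fin.sum_univ_two, Submodule.coe_add, Submodule.coe_add] <;>
      simp only [Submodule.coe_smul, h0, h1] <;>
      fin_cases g <;>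
        simp [rhoW, Pol.e, Pol.f, Pol.h, Pol.z, Derivation.leibniz] <;> ring)
  have k0 : ∀ q, (κ q 0).1 = X 1 * q.1 := fun _ => rfl
  have k1 : ∀ q, (κ q 1).1 = -(X 0 * q.1) := fun _ => rfl
  have hinj : Injective κ := by
    rw [injective_iff_map_eq_zero]
    intro q hq
    have := k0 q
    rw [hq] at this
    exact Subtype.ext ((mul_eq_zero.1 this.symm).resolve_left (X_ne_zero 1))
  have hok : ∀ q, omL _ (κ q) = 0 := by
    intro q
    ext k : 2
    fin_cases k
    · refine (om_val _).1.trans ?_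
      simp [k0, k1, Derivation.leibniz]; ring
    · refine (om_val _).2.trans ?_
      simp [k0, k1, Derivation.leibniz]; ring
  have hm : ((m : ℂ) + 1) ≠ 0 := by exact_mod_cast Nat.succ_ne_zero m
  let a : U := algebraMap ℂ U (((m : ℂ) + 1)⁻¹)
  let b : U := algebraMap ℂ U ((2 * ((m : ℂ) + 1))⁻¹)
  let c : GY rhoW (VV (m + 1)) → VV m := fun w =>
    ⟨pderiv 1 (w 0).1, pderiv_mem (w 0).2 1⟩ - ⟨pderiv 0 (w 1).1, pderiv_mem (w 1).2 0⟩
  have hc : ∀ w, (c w).1 = pderiv 1 (w 0).1 - pderiv 0 (w 1).1 := fun _ => rfl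
  have hdec : ∀ w, w = a • κ (c w) + b • omL _ w := by
    intro w
    have e1 : (C (((m : ℂ) + 1)⁻¹) : Pol) * ((m : Pol) + 1) = 1 := by
      rw [← map_natCast (C : ℂ →+* Pol), ← C_1, ← C_add, ← C_mul, inv_mul_cancel₀ hm]
    have e2 : (C ((2 * ((m : ℂ) + 1))⁻¹) : Pol) * 2 = C (((m : ℂ) + 1)⁻¹) := by
      rw [← map_ofNat (C : ℂ →+* Pol) 2, ← C_mul]
      congr 1
      field_simp
    have w0 := mem_VV.1 (w 0).2
    have w1 := mem_VV.1 (w 1).2
    push_cast at w0 w1
    ext k : 2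
    rw [GY.add_apply, GY.alg_smul, GY.alg_smul, Submodule.coe_add, Submodule.coe_smul,
      Submodule.coe_smul, Pol.alg, Pol.alg]
    fin_cases k
    · change (w 0).1 = _ * (κ (c w) 0).1 + _ * (omL _ w 0).1
      rw [(om_val w).1, k0, hc, ← mul_assoc _ 2, e2]
      linear_combination (-(C (((m : ℂ) + 1)⁻¹) : Pol)) * w0 - (w 0).1 * e1
    · change (w 1).1 = _ * (κ (c w) 1).1 + _ * (omL _ w 1).1
      rw [(om_val w).2, k1, hc, ← mul_assoc _ 2, e2]
      linear_combination (-(C (((m : ℂ) + 1)⁻¹) : Pol)) * w1 - (w 1).1 * e1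
  refine ⟨κ, hinj, fun w => ⟨fun h => ⟨a • c w, ?_⟩, ?_⟩, fun v w h => ?_, fun w => ?_⟩
  · rw [map_smul]
    conv_rhs => rw [hdec w, h, smul_zero, add_zero]
  · rintro ⟨v, rfl⟩; exact hok v
  · have h2 := congrArg (omL _) (hdec w)
    rw [map_add, map_smul, map_smul, hok, h, hok, smul_zero, smul_zero, add_zero] at h2
    exact hinj (h2.trans (map_zero κ).symm)
  · exact ⟨a • c w, b • w, by rw [map_smul, map_smul]; exact hdec w⟩

end Crest.Agent.H0268
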