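import Crest.Agent.H0268.Alg
import Crest.Agent.H0268.Pol

set_option autoImplicit false

namespace Crest.Agent.H0268

open Function Sum

section

variable {V' V : Type} [AddCommGroup V'] [Module U V'] [AddCommGroup V] [Module U V]

lemma Pair.ses (h : Pair V' V) : ∃ a : XX (Tr V') →ₗ[At] Ph (Tr V),
    Injective a ∧ Exact a (prP (Tr V)) := by
  obtain ⟨κ, hinj, hker, hint, hsum⟩ := h
  let k : FHom (Tr V') (up (G rhoW (Tr V))) := ⟨κ, fun _ _ _ _ => trivial⟩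
  refine ⟨(LinearMap.range (nu (Tr V))).mkQ ∘ₗ mu (Tr V) ∘ₗ Psi.map WX k, ?_, fun y => ?_⟩
  · rw [injective_iff_map_eq_zero]
    intro x hx
    obtain ⟨w, hw⟩ := (Submodule.Quotient.mk_eq_zero _).1 hx
    have := mu_inj _ hw
    ext i
    exact hint _ _ (congrFun (congrArg Subtype.val this) i)
  · obtain ⟨y, rfl⟩ := Submodule.Quotient.mk_surjective _ y
    constructor
    · intro h0
      choose v w hvw using fun i : Fin 5 => hsum (fun s => y.1 (inr (i, s)))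
      refine ⟨⟨v, fun _ => trivial⟩, Eq.symm ((Submodule.Quotient.eq _).2 ?_)⟩
      refine ⟨⟨w, fun _ _ => trivial⟩, ?_⟩
      ext (i | ⟨i, s⟩)
      · have : y.1 (inl i) = 0 := congrFun (congrArg Subtype.val h0) i
        simp [this]
      · have : y.1 (inr (i, s)) = κ (v i) s + omL V (w i) s := congrFun (hvw i) s
        rw [Psi.sub_apply, this]
        exact (add_sub_cancel_left _ _).symm
    · rintro ⟨x, hx⟩
      rw [← hx]
      rfl

lemma Pair.snake (h : Pair V' V) {Y1 Y2 : FM} {f : FHom Y1 Y2} {g : FHom Y2 (Tr V)} (hs : SES f g)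
    (h2 : Injective (omL Y2.Y)) : ∃ δ : XX (Tr V') →ₗ[At] Ph Y1, Injective δ ∧ Exact δ (Phmap f) := by
  obtain ⟨κ, hinj, hker, -, -⟩ := h
  let k : FHom (Tr V') (G rhoW (Tr V)) := ⟨κ, fun _ _ _ _ => trivial⟩
  refine H0268.snake (nu_nat f) (nu_nat g) ((hs.G rhoW).psi_exact WX) ((hs.G rhoW).psi_surj WX)
    (hs.psi_exact WI) (Psi.map_inj WI hs.inj) (nu_inj h2) (Psi.map WX k) (Psi.map_inj WX hinj) ?_
  intro w
  constructor
  · intro h0
    have : ∀ i, omL V (w.1 i) = 0 := fun i => funext fun s =>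
      congrFun (congrArg Subtype.val h0) (inr (i, s))
    choose v hv using fun i => (hker _).1 (this i)
    exact ⟨⟨v, fun _ => trivial⟩, Psi.ext hv⟩
  · rintro ⟨x, rfl⟩
    ext (i | ⟨i, s⟩)
    · rfl
    · exact congrFun ((hker _).2 ⟨x.1 i, rfl⟩) s

end

lemma exists_res (V : Type) [AddCommGroup V] [Module U V] [Module ℂ V] [IsScalarTower ℂ U V]
    [Module.Finite ℂ V] [Nontrivial V] :
    ∃ (Y1 Y2 : FM) (f : FHom Y1 Y2) (g : FHom Y2 (Tr V)), SES f g ∧ Good 3 1 Y1 ∧ Good 3 0 Y2 ∧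
      Injective (omL Y2.Y) := by
  classical
  let b := Module.finBasis ℂ V
  haveI : Nonempty (Fin (Module.finrank ℂ V)) := ⟨⟨0, Module.finrank_pos⟩⟩
  obtain ⟨ρ, f, g, h⟩ := ses_last V b
  exact ⟨_, _, f, g, h, good3 ρ le_rfl, good3 ρ (by omega), (zi3.zf.G ρ).omInj⟩

lemma finite_XX (m : ℕ) : Module.Finite At (XX (Tr (VV (m + 1)))) := by
  obtain ⟨Y1, Y2, f, g, h, -, h2, -⟩ := exists_res (VV (m + 1))
  haveI := h2.fin
  exact Module.Finite.of_surjective (prP _ ∘ₗ Phmap g) ((prP_surj _).comp h.ph_surj)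

lemma base_aux {T' T : FM} (hg : Good 4 0 T) {a : XX T' →ₗ[At] Ph T} (ha : Injective a)
    (hex : Exact a (prP T)) [Subsingleton (XX T')] : PD JJ (XX T) 5 ∧ ¬ PD JJ (XX T) 4 := by
  have h0 : PD JJ (XX T') 0 := pd_zero
  exact ⟨pd3 hex ha (prP_surj _) (h0.mono (by omega)) hg.pd, fun hc =>
    (hg.nv rfl).not_pd (pd2 hex ha (prP_surj _) (h0.mono (by omega)) hc)⟩

lemma base : PD JJ (XX (Tr (VV 1))) 5 ∧ ¬ PD JJ (XX (Tr (VV 1))) 4 := by
  obtain ⟨Y1, Y2, f, g, h, h1, h2, -⟩ := exists_res (VV 1)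
  have hom : Injective (omL (VV 1)) := by
    obtain ⟨κ, -, hker, -, -⟩ := pair 0
    rw [injective_iff_map_eq_zero]
    intro w hw
    obtain ⟨v, rfl⟩ := (hker w).1 hw
    rw [Subsingleton.elim v 0, map_zero]
  have hg : Good 4 0 (Tr (VV 1)) := good_step h hom h1 h2
  obtain ⟨a, ha, hex⟩ := (pair 0).ses
  haveI : Subsingleton (XX (Tr (VV 0))) := ⟨fun x y => Psi.ext fun k =>
    Subsingleton.elim (α := VV 0) _ _⟩
  exact base_aux hg ha hex

lemma step_aux {T' T Y1 Y2 : FM} {f : FHom Y1 Y2} {g : FHom Y2 T} (h : SES f g)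
    (g1 : Good 3 1 Y1) (g2 : Good 3 0 Y2) {δ : XX T' →ₗ[At] Ph Y1} (hδ : Injective δ)
    (hδe : Exact δ (Phmap f)) {a : XX T' →ₗ[At] Ph T} (ha : Injective a)
    (hex : Exact a (prP T)) (p : ℕ) (hp : 4 ≤ p) (h1 : PD JJ (XX T') (p + 1))
    (h2 : ¬ PD JJ (XX T') p) : PD JJ (XX T) (p + 2 + 1) ∧ ¬ PD JJ (XX T) (p + 2) := by
  have e1 : Exact δ (Phmap f).rangeRestrict := fun y => by
    rw [← hδe y, ← Subtype.coe_inj]; rfl
  have s1 := (Phmap f).surjective_rangeRestrict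
  have e2 : Exact (LinearMap.range (Phmap f)).subtype (Phmap g) := fun y => by
    rw [h.ph_exact y]
    exact ⟨fun hy => ⟨⟨y, hy⟩, rfl⟩, fun ⟨x, hx⟩ => hx ▸ x.2⟩
  have i2 := (LinearMap.range (Phmap f)).injective_subtype
  have z1 : PD JJ (LinearMap.range (Phmap f)) (p + 1 + 1) :=
    pd3 e1 hδ s1 h1 (g1.pd.mono (by omega))
  have z2 : ¬ PD JJ (LinearMap.range (Phmap f)) (p + 1) := fun hc =>
    h2 (pd1 e1 hδ s1 (g1.pd.mono (by omega)) hc)
  have p1 : PD JJ (Ph T) (p + 1 + 1 + 1) :=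
    pd3 e2 i2 h.ph_surj z1 (g2.pd.mono (by omega))
  have p2 : ¬ PD JJ (Ph T) (p + 1 + 1) := fun hc =>
    z2 (pd1 e2 i2 h.ph_surj (g2.pd.mono (by omega)) hc)
  exact ⟨pd3 hex ha (prP_surj _) (h1.mono (by omega)) p1, fun hc =>
    p2 (pd2 hex ha (prP_surj _) (h1.mono (by omega)) hc)⟩

lemma step (m p : ℕ) (hp : 4 ≤ p) (h1 : PD JJ (XX (Tr (VV m))) (p + 1))
    (h2 : ¬ PD JJ (XX (Tr (VV m))) p) :
    PD JJ (XX (Tr (VV (m + 1)))) (p + 2 + 1) ∧ ¬ PD JJ (XX (Tr (VV (m + 1)))) (p + 2) := by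
  obtain ⟨Y1, Y2, f, g, h, g1, g2, hom⟩ := exists_res (VV (m + 1))
  obtain ⟨δ, hδ, hδe⟩ := (pair m).snake h hom
  obtain ⟨a, ha, hex⟩ := (pair m).ses
  exact step_aux h g1 g2 hδ hδe ha hex p hp h1 h2

lemma main (n : ℕ) : PD JJ (XX (Tr (VV (n + 1)))) (4 + 2 * n + 1) ∧
    ¬ PD JJ (XX (Tr (VV (n + 1)))) (4 + 2 * n) := by
  induction n with
  | zero => exact base
  | succ n ih => exact step (n + 1) (4 + 2 * n) (by omega) ih.1 ih.2

theorem final :
    ∃ (A : Type) (_ : Ring A) (_ : Algebra ℂ A), FiniteDimensional ℂ A ∧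
      ∀ k : ℕ, ∃ N : ModuleCat.{0} A, Module.Finite A N ∧
        ¬ CategoryTheory.HasProjectiveDimensionLT N k ∧
        ∃ n : ℕ, CategoryTheory.HasProjectiveDimensionLT N n := by
  refine ⟨At ⧸ JJ, inferInstance, inferInstance,
    Module.Finite.of_surjective (Ideal.Quotient.mkₐ ℂ JJ).toLinearMap
      (Ideal.Quotient.mkₐ_surjective ℂ JJ), fun k => ?_⟩
  haveI := finite_XX k
  exact ⟨obj JJ (XX (Tr (VV (k + 1)))), finite_obj,
    fun hc => (main k).2 (PD.mono hc (by omega)), _, (main k).1⟩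

end Crest.Agent.H0268
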