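import Crest.Agent.H0268.U

set_option autoImplicit false

namespace Crest.Agent.H0268

open Function

abbrev Ix : Type := ℕ × ℕ × ℕ × ℕ
abbrev PP : Type := Ix →₀ ℂ

noncomputable def bs (l i j k : ℕ) : PP := Finsupp.single (l, i, j, k) 1

noncomputable def mkop {M : Type} [AddCommGroup M] [Module ℂ M] (φ : ℕ → ℕ → ℕ → ℕ → M) :
    PP →ₗ[ℂ] M :=
  Finsupp.linearCombination ℂ (fun t : Ix => φ t.1 t.2.1 t.2.2.1 t.2.2.2)

@[simp] lemma mkop_bs {M : Type} [AddCommGroup M] [Module ℂ M] (φ : ℕ → ℕ → ℕ → ℕ → M)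
    (l i j k : ℕ) : mkop φ (bs l i j k) = φ l i j k := by
  simp [mkop, bs]

lemma PP_ext {M : Type} [AddCommGroup M] [Module ℂ M] {φ ψ : PP →ₗ[ℂ] M}
    (h : ∀ l i j k, φ (bs l i j k) = ψ (bs l i j k)) : φ = ψ := by
  refine Finsupp.lhom_ext' fun t => LinearMap.ext_ring ?_
  obtain ⟨l, i, j, k⟩ := t
  exact h l i j k

noncomputable def opE (α : ℂ) : Module.End ℂ PP := mkop fun l i j k =>
  bs l i (j + 1) k + (i : ℂ) • bs l (i - 1) j (k + 1) +
    ((i : ℂ) * (α + 2 * j - i + 1)) • bs l (i - 1) j k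
noncomputable def opF : Module.End ℂ PP := mkop fun l i j k => bs l (i + 1) j k
noncomputable def opH (α : ℂ) : Module.End ℂ PP := mkop fun l i j k =>
  bs l i j (k + 1) + (α + 2 * j - 2 * i) • bs l i j k
noncomputable def opZ : Module.End ℂ PP := mkop fun l i j k => bs (l + 1) i j k

noncomputable def op (α : ℂ) : Fin 4 → Module.End ℂ PP := ![opE α, opF, opH α, opZ]

lemma quad_op (α : ℂ) : Quad (op α) := by
  refine ⟨?_, ?_, ?_, fun g => ?_⟩
  · refine PP_ext fun l i j k => ?_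
    rcases i with _ | i <;> simp [op, opE, opH] <;> module
  · refine PP_ext fun l i j k => ?_
    simp [op, opF, opH]; module
  · refine PP_ext fun l i j k => ?_
    rcases i with _ | i <;> simp [op, opE, opH, opF] <;> module
  · refine PP_ext fun l i j k => ?_
    fin_cases g <;> simp [op, opE, opH, opF, opZ]

noncomputable def actP (α : ℂ) : U →ₐ[ℂ] Module.End ℂ PP := lift (op α) (quad_op α)

noncomputable def Ha (α : ℂ) : U := gen 2 - algebraMap ℂ U α

noncomputable def bb (α : ℂ) (l i j k : ℕ) : U :=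
  gen 3 ^ l * (gen 1 ^ i * (gen 0 ^ j * Ha α ^ k))

lemma h_H (α : ℂ) (k : ℕ) : gen 2 * Ha α ^ k = Ha α ^ (k + 1) + α • Ha α ^ k := by
  rw [pow_succ', Ha, sub_mul, Algebra.smul_def]; abel

lemma h_e (j : ℕ) (w : U) :
    gen 2 * (gen 0 ^ j * w) = gen 0 ^ j * (gen 2 * w) + (2 * j : ℂ) • (gen 0 ^ j * w) := by
  induction j with
  | zero => simp
  | succ j ih =>
    rw [pow_succ', mul_assoc, ← mul_assoc (gen 2), quad_gen.he, add_mul, mul_assoc, ih]
    simp only [mul_add, add_mul, mul_assoc, mul_smul_comm]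
    push_cast
    module

lemma h_f (j : ℕ) (w : U) :
    gen 2 * (gen 1 ^ j * w) = gen 1 ^ j * (gen 2 * w) - (2 * j : ℂ) • (gen 1 ^ j * w) := by
  induction j with
  | zero => simp
  | succ j ih =>
    rw [pow_succ', mul_assoc, ← mul_assoc (gen 2), quad_gen.hf, sub_mul, mul_assoc, ih]
    simp only [mul_sub, add_mul, mul_assoc, mul_smul_comm]
    push_cast
    module

lemma e_f (i : ℕ) (w : U) :
    gen 0 * (gen 1 ^ (i + 1) * w) = gen 1 ^ (i + 1) * (gen 0 * w) +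
      (i + 1 : ℂ) • (gen 1 ^ i * (gen 2 * w)) - ((i + 1) * i : ℂ) • (gen 1 ^ i * w) := by
  induction i with
  | zero => simp [← mul_assoc, quad_gen.ef, add_mul]
  | succ i ih =>
    rw [pow_succ' _ (i + 1), mul_assoc, ← mul_assoc (gen 0), quad_gen.ef, add_mul, mul_assoc, ih,
      h_f]
    simp only [mul_sub, mul_add, mul_smul_comm, ← mul_assoc, ← pow_succ']
    push_cast
    module

lemma g_z (g : U) (l : ℕ) (w : U) : g * (gen 3 ^ l * w) = gen 3 ^ l * (g * w) := by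
  rw [← mul_assoc, ← mul_assoc, (Commute.pow_left (z_comm g) l).eq]

noncomputable def sP (α : ℂ) : PP →ₗ[ℂ] U := mkop (bb α)

lemma sP_op (α : ℂ) (g : Fin 4) (p : PP) : sP α (op α g p) = gen g * sP α p := by
  have : sP α ∘ₗ op α g = LinearMap.mulLeft ℂ (gen g) ∘ₗ sP α := by
    refine PP_ext fun l i j k => ?_
    fin_cases g
    · rcases i with _ | i
      · simp [op, opE, sP, bb, g_z, pow_succ', mul_assoc]
      · simp only [op, opE, sP, bb, Fin.zero_eta, Matrix.cons_val_zero, LinearMap.comp_apply,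
          mkop_bs, map_add, map_smul, LinearMap.mulLeft_apply, Nat.add_sub_cancel]
        rw [g_z, e_f, h_e, h_H]
        simp only [mul_sub, mul_add, mul_smul_comm, pow_succ' (gen 0), mul_assoc]
        push_cast
        module
    · simp [op, opF, sP, bb, g_z, pow_succ', mul_assoc]
    · simp only [op, opH, sP, bb, Fin.reduceFinMk, Matrix.cons_val, LinearMap.comp_apply,
          mkop_bs, map_add, map_smul, LinearMap.mulLeft_apply]
      rw [g_z, h_f, h_e, h_H]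
      simp only [mul_sub, mul_add, mul_smul_comm]
      module
    · simp [op, opZ, sP, bb, pow_succ', mul_assoc]
  exact LinearMap.congr_fun this p

lemma sP_act (α : ℂ) (u : U) (p : PP) : sP α (actP α u p) = u * sP α p := by
  induction u using U.induction generalizing p with
  | hc c => simp [Algebra.smul_def]
  | hg g => simp [actP, sP_op]
  | hm a b h1 h2 => rw [map_mul, Module.End.mul_apply, h1, h2, mul_assoc]
  | ha a b h1 h2 => rw [map_add, LinearMap.add_apply, map_add, h1, h2, add_mul]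

noncomputable def rep (α : ℂ) : U →ₗ[ℂ] PP :=
  LinearMap.applyₗ (bs 0 0 0 0) ∘ₗ (actP α).toLinearMap

lemma rep_apply (α : ℂ) (u : U) : rep α u = actP α u (bs 0 0 0 0) := rfl

lemma sP_rep (α : ℂ) (u : U) : sP α (rep α u) = u := by
  rw [rep_apply, sP_act]; simp [sP, bb]

lemma rep_mul (α : ℂ) (u v : U) : rep α (u * v) = actP α u (rep α v) := by
  simp [rep_apply]

lemma rep_gen_mul (α : ℂ) (g : Fin 4) (v : U) : rep α (gen g * v) = op α g (rep α v) := by
  simp [rep_mul, actP]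

lemma rep_bb (α : ℂ) (l i j k : ℕ) : rep α (bb α l i j k) = bs l i j k := by
  have h1 : ∀ k, rep α (Ha α ^ k) = bs 0 0 0 k := by
    intro k
    induction k with
    | zero => simp [rep_apply]
    | succ k ih =>
      have := congrArg (rep α) (h_H α k)
      rw [rep_gen_mul, map_add, map_smul, ih] at this
      simpa [op, opH] using this.symm
  have h2 : ∀ j, rep α (gen 0 ^ j * Ha α ^ k) = bs 0 0 j k := by
    intro j
    induction j with
    | zero => simp [h1]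
    | succ j ih => rw [pow_succ', mul_assoc, rep_gen_mul, ih]; simp [op, opE]
  have h3 : ∀ i, rep α (gen 1 ^ i * (gen 0 ^ j * Ha α ^ k)) = bs 0 i j k := by
    intro i
    induction i with
    | zero => simp [h2]
    | succ j ih => rw [pow_succ', mul_assoc, rep_gen_mul, ih]; simp [op, opF]
  induction l with
  | zero => simp [bb, h3]
  | succ j ih => rw [bb] at ih ⊢; rw [pow_succ', mul_assoc, rep_gen_mul, ih]; simp [op, opZ]

noncomputable def bt (α : ℂ) (t : Ix) : U := bb α t.1 t.2.1 t.2.2.1 t.2.2.2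

lemma rep_bt (α : ℂ) (t : Ix) : rep α (bt α t) = Finsupp.single t 1 := rep_bb α _ _ _ _

lemma U_ext (α : ℂ) {M : Type} [AddCommGroup M] [Module ℂ M] {φ ψ : U →ₗ[ℂ] M}
    (h : ∀ t, φ (bt α t) = ψ (bt α t)) : φ = ψ := by
  have : φ ∘ₗ sP α = ψ ∘ₗ sP α := PP_ext fun l i j k => by
    simpa [sP, bt] using h (l, i, j, k)
  ext u
  rw [← sP_rep α u]
  exact LinearMap.congr_fun this _

/-- span of a set of basis vectors -/
noncomputable def Sp (α : ℂ) (T : Set Ix) : Submodule ℂ U :=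
  (Finsupp.supported ℂ ℂ T).comap (rep α)

lemma mem_Sp {α : ℂ} {T : Set Ix} {u : U} : u ∈ Sp α T ↔ ∀ t, t ∉ T → rep α u t = 0 := by
  simp [Sp, Finsupp.mem_supported']

lemma bt_mem {α : ℂ} {T : Set Ix} {t : Ix} (h : t ∈ T) : bt α t ∈ Sp α T := by
  rw [mem_Sp]
  intro s hs
  rw [rep_bt, Finsupp.single_apply, if_neg]
  rintro rfl; exact hs h

lemma bb_mem {α : ℂ} {T : Set Ix} {l i j k : ℕ} (h : (l, i, j, k) ∈ T) : bb α l i j k ∈ Sp α T :=
  bt_mem (t := (l, i, j, k)) h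

lemma Sp_le {α : ℂ} {T : Set Ix} {N : Submodule ℂ U} (h : ∀ t ∈ T, bt α t ∈ N) : Sp α T ≤ N := by
  intro u hu
  rw [← sP_rep α u, sP, mkop, Finsupp.linearCombination_apply, Finsupp.sum]
  refine Submodule.sum_mem _ fun t ht => Submodule.smul_mem _ _ (h t ?_)
  by_contra h'
  exact (Finsupp.mem_support_iff.1 ht) (mem_Sp.1 hu t h')

lemma Sp_mono {α : ℂ} {T T' : Set Ix} (h : T ⊆ T') : Sp α T ≤ Sp α T' := fun _ hu =>
  mem_Sp.2 fun t ht => mem_Sp.1 hu t fun h' => ht (h h')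

lemma Sp_inter {α : ℂ} {T T' : Set Ix} {u : U} (h : u ∈ Sp α T) (h' : u ∈ Sp α T') :
    u ∈ Sp α (T ∩ T') := mem_Sp.2 fun t ht => by
  by_cases h1 : t ∈ T
  · exact mem_Sp.1 h' t fun h2 => ht ⟨h1, h2⟩
  · exact mem_Sp.1 h t h1

lemma Sp_empty {α : ℂ} {u : U} (h : u ∈ Sp α ∅) : u = 0 := by
  have := Sp_le (α := α) (T := ∅) (N := ⊥) (by simp) h
  simpa using this

lemma mem_Sp_univ {α : ℂ} (u : U) : u ∈ Sp α Set.univ := mem_Sp.2 (by simp)

lemma gen_mul_Sp {α : ℂ} {T T' : Set Ix} (g : Fin 4)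
    (h : ∀ l i j k, (l, i, j, k) ∈ T → op α g (bs l i j k) ∈ Finsupp.supported ℂ ℂ T')
    {u : U} (hu : u ∈ Sp α T) : gen g * u ∈ Sp α T' := by
  refine Sp_le (N := (Sp α T').comap (LinearMap.mulLeft ℂ (gen g))) ?_ hu
  rintro ⟨l, i, j, k⟩ ht
  change rep α (gen g * bb α l i j k) ∈ Finsupp.supported ℂ ℂ T'
  rw [rep_gen_mul, rep_bb]
  exact h l i j k ht

lemma bs_mem {T : Set Ix} {l i j k : ℕ} (h : (l, i, j, k) ∈ T) :
    bs l i j k ∈ Finsupp.supported ℂ ℂ T := Finsupp.single_mem_supported _ _ h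

lemma opE_mem {α : ℂ} {T : Set Ix} {l i j k : ℕ} (h1 : (l, i, j + 1, k) ∈ T)
    (h2 : (l, i - 1, j, k + 1) ∈ T)
    (h3 : (l, i - 1, j, k) ∈ T ∨ (i : ℂ) * (α + 2 * j - i + 1) = 0) :
    op α 0 (bs l i j k) ∈ Finsupp.supported ℂ ℂ T := by
  simp only [op, opE, Matrix.cons_val_zero, mkop_bs]
  refine add_mem (add_mem (bs_mem h1) (Submodule.smul_mem _ _ (bs_mem h2))) ?_
  rcases h3 with h3 | h3
  · exact Submodule.smul_mem _ _ (bs_mem h3)
  · rw [h3, zero_smul]; exact zero_mem _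

lemma opF_mem {α : ℂ} {T : Set Ix} {l i j k : ℕ} (h1 : (l, i + 1, j, k) ∈ T) :
    op α 1 (bs l i j k) ∈ Finsupp.supported ℂ ℂ T := by
  simpa [op, opF] using bs_mem h1

lemma opH_mem {α : ℂ} {T : Set Ix} {l i j k : ℕ} (h1 : (l, i, j, k + 1) ∈ T)
    (h2 : (l, i, j, k) ∈ T) : op α 2 (bs l i j k) ∈ Finsupp.supported ℂ ℂ T := by
  simp only [op, opH, Matrix.cons_val, mkop_bs]
  exact add_mem (bs_mem h1) (Submodule.smul_mem _ _ (bs_mem h2))

lemma opZ_mem {α : ℂ} {T : Set Ix} {l i j k : ℕ} (h1 : (l + 1, i, j, k) ∈ T) :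
    op α 3 (bs l i j k) ∈ Finsupp.supported ℂ ℂ T := by
  simpa [op, opZ] using bs_mem h1

def deg (t : Ix) : ℕ := t.1 + t.2.1 + t.2.2.1 + t.2.2.2

lemma Ha_mem (α : ℂ) : Ha α ∈ Fil 1 := sub_mem (gen_mem_Fil1 2) (alg_mem_Fil α 1)

lemma pow_mem_Fil {u : U} (hu : u ∈ Fil 1) (k : ℕ) : u ^ k ∈ Fil k := by
  rw [Fil_one] at hu; exact Submodule.pow_mem_pow _ hu k

lemma bt_mem_Fil (α : ℂ) (t : Ix) : bt α t ∈ Fil (deg t) := by
  have := Fil_mul (pow_mem_Fil (gen_mem_Fil1 3) t.1) (Fil_mul (pow_mem_Fil (gen_mem_Fil1 1) t.2.1)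
    (Fil_mul (pow_mem_Fil (gen_mem_Fil1 0) t.2.2.1) (pow_mem_Fil (Ha_mem α) t.2.2.2)))
  rw [deg, add_assoc, add_assoc]
  exact this

lemma Fil_eq (α : ℂ) (m : ℕ) : Fil m = Sp α {t | deg t ≤ m} := by
  apply le_antisymm
  · intro u hu
    revert m u
    refine Fil_induction (P := fun m u => u ∈ Sp α {t | deg t ≤ m}) (fun c => ?_)
      (fun _ => zero_mem _) (fun _ _ _ => add_mem) (fun _ c _ => Submodule.smul_mem _ c)
      (fun a u hu => Sp_mono (fun t (ht : deg t ≤ a) => (by omega : deg t ≤ a + 1)) hu)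
      (fun a g u hu => gen_mul_Sp g (fun l i j k ht => ?_) hu)
    · rw [Algebra.algebraMap_eq_smul_one]
      refine Submodule.smul_mem _ _ ?_
      have : bb α 0 0 0 0 ∈ Sp α {t | deg t ≤ 0} := bb_mem (by simp [deg])
      simpa [bb] using this
    · simp only [Set.mem_setOf_eq, deg] at ht
      fin_cases g
      · exact opE_mem (by simp only [Set.mem_setOf_eq, deg]; omega)
          (by simp only [Set.mem_setOf_eq, deg]; omega)
          (Or.inl (by simp only [Set.mem_setOf_eq, deg]; omega))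
      · exact opF_mem (by simp only [Set.mem_setOf_eq, deg]; omega)
      · exact opH_mem (by simp only [Set.mem_setOf_eq, deg]; omega)
          (by simp only [Set.mem_setOf_eq, deg]; omega)
      · exact opZ_mem (by simp only [Set.mem_setOf_eq, deg]; omega)
  · exact Sp_le fun t ht => Fil_mono ht (bt_mem_Fil α t)

lemma Ud_eq (α : ℂ) (a j : ℕ) : Ud a j = Sp α {t | deg t + j ≤ a} := by
  by_cases h : j ≤ a
  · rw [Ud_of_le h, Fil_eq α]; congr 1; ext t; simp only [Set.mem_setOf_eq]; omega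
  · rw [Ud_of_lt (by omega)]
    refine le_antisymm bot_le (Sp_le fun t ht => ?_)
    simp only [Set.mem_setOf_eq] at ht; omega

lemma key {α' α : ℂ} {D' D T' T : Set Ix} (φ : U →ₗ[ℂ] U) (ι : Ix → Ix) (hι : Injective ι)
    (dead : ∀ t ∈ D', φ (bt α' t) ∈ Sp α D) (live : ∀ t ∉ D', φ (bt α' t) = bt α (ι t))
    (hD : D ⊆ T) (hD' : D' ⊆ T') (hT : ∀ t ∉ D', ι t ∈ T → t ∈ T') {u : U}
    (hu : φ u ∈ Sp α T) : u ∈ Sp α' T' := by
  rw [mem_Sp]
  intro t0 ht0
  have h1 : t0 ∉ D' := fun h => ht0 (hD' h)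
  have h2 : ι t0 ∉ T := fun h => ht0 (hT t0 h1 h)
  have : Finsupp.lapply t0 ∘ₗ rep α' = Finsupp.lapply (ι t0) ∘ₗ rep α ∘ₗ φ := by
    refine U_ext α' fun t => ?_
    simp only [LinearMap.comp_apply, Finsupp.lapply_apply, rep_bt]
    by_cases ht : t ∈ D'
    · rw [mem_Sp.1 (dead t ht) _ (fun h => h2 (hD h)), Finsupp.single_apply, if_neg]
      rintro rfl; exact h1 ht
    · rw [live t ht, rep_bt, Finsupp.single_apply, Finsupp.single_apply]
      simp [hι.eq_iff]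
  have h3 := LinearMap.congr_fun this u
  simp only [LinearMap.comp_apply, Finsupp.lapply_apply] at h3
  rw [h3]
  exact mem_Sp.1 hu _ h2

/-- left ideal spanned by basis vectors -/
noncomputable def mkI (α : ℂ) (D : Set Ix)
    (h : ∀ g l i j k, (l, i, j, k) ∈ D → op α g (bs l i j k) ∈ Finsupp.supported ℂ ℂ D) :
    Submodule U U where
  carrier := Sp α D
  add_mem' := add_mem
  zero_mem' := zero_mem _
  smul_mem' := fun c x hx => by
    change c * x ∈ Sp α D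
    induction c using U.induction generalizing x with
    | hc c => rw [← Algebra.smul_def]; exact Submodule.smul_mem _ _ hx
    | hg g => exact gen_mul_Sp g (h g) hx
    | hm a b h1 h2 => rw [mul_assoc]; exact h1 _ (h2 _ hx)
    | ha a b h1 h2 => rw [add_mul]; exact add_mem (h1 _ hx) (h2 _ hx)

structure Step (I' I I'' : Submodule U U) (x : U) : Prop where
  hx : x ∈ Fil 1
  map : ∀ u ∈ I', u * x ∈ I
  inj : ∀ u, u * x ∈ I → u ∈ I'
  le : I ≤ I''
  mem : x ∈ I''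
  ex : ∀ a j u, u ∈ Ud a j → u ∈ I'' → ∃ v ∈ Ud a (j + 1), v * x - u ∈ I

lemma step_of {α' α : ℂ} {D' D D'' : Set Ix} {I' I I'' : Submodule U U} {x : U}
    (hI' : ∀ u, u ∈ I' ↔ u ∈ Sp α' D') (hI : ∀ u, u ∈ I ↔ u ∈ Sp α D)
    (hI'' : ∀ u, u ∈ I'' ↔ u ∈ Sp α D'') (hx : x ∈ Fil 1) (hx' : x ∈ Sp α D'')
    (ι : Ix → Ix) (hι : Injective ι) (dead : ∀ t ∈ D', bt α' t * x ∈ Sp α D)
    (live : ∀ t ∉ D', bt α' t * x = bt α (ι t)) (hlive : ∀ t ∉ D', ι t ∉ D)
    (hdeg : ∀ t, deg (ι t) = deg t + 1) (hD : D ⊆ D'')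
    (hnext : ∀ t ∈ D'', t ∉ D → ∃ t' ∉ D', ι t' = t) : Step I' I I'' x where
  hx := hx
  map := fun u hu => (hI _).2
    (Sp_le (N := (Sp α D).comap (LinearMap.mulRight ℂ x)) dead ((hI' _).1 hu))
  inj := fun u hu => (hI' _).2 (key (LinearMap.mulRight ℂ x) ι hι dead live subset_rfl subset_rfl
    (fun t ht h => absurd h (hlive t ht)) ((hI _).1 hu))
  le := fun u hu => (hI'' _).2 (Sp_mono hD ((hI _).1 hu))
  mem := (hI'' _).2 hx'
  ex := fun a j u hu hu'' => by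
    rw [Ud_eq α] at hu
    have h := Sp_inter hu ((hI'' _).1 hu'')
    have := Sp_le (N := (Ud a (j + 1)).map (LinearMap.mulRight ℂ x) ⊔ Sp α D) (fun t ht => by
      by_cases h1 : t ∈ D
      · exact Submodule.mem_sup_right (bt_mem h1)
      · obtain ⟨t', h2, rfl⟩ := hnext t ht.2 h1
        refine Submodule.mem_sup_left ⟨bt α' t', ?_, live t' h2⟩
        rw [Ud_eq α']
        have h3 : deg (ι t') + j ≤ a := ht.1
        exact bt_mem (show deg t' + (j + 1) ≤ a by rw [hdeg] at h3; omega)) h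
    obtain ⟨_, ⟨v, hv, rfl⟩, w, hw, rfl⟩ := Submodule.mem_sup.1 this
    refine ⟨v, hv, (hI _).2 ?_⟩
    simpa using hw

def D1 : Set Ix := {t | 1 ≤ t.2.2.2}
def D2 : Set Ix := {t | 1 ≤ t.2.2.2 ∨ 1 ≤ t.2.2.1}
def D3 : Set Ix := {t | 1 ≤ t.2.2.2 ∨ 1 ≤ t.2.2.1 ∨ 1 ≤ t.2.1}
def D4 : Set Ix := {t | 1 ≤ t.2.2.2 ∨ 1 ≤ t.2.2.1 ∨ 1 ≤ t.2.1 ∨ 1 ≤ t.1}

noncomputable def I1 (α : ℂ) : Submodule U U := mkI α D1 (fun g l i j k ht => by
  simp only [D1, Set.mem_setOf_eq] at ht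
  fin_cases g
  · exact opE_mem ht (by simp [D1]) (Or.inl ht)
  · exact opF_mem ht
  · exact opH_mem (by simp [D1]) ht
  · exact opZ_mem ht)

noncomputable def I2 (α : ℂ) : Submodule U U := mkI α D2 (fun g l i j k ht => by
  simp only [D2, Set.mem_setOf_eq] at ht
  fin_cases g
  · exact opE_mem (by simp [D2]) (by simp [D2]) (Or.inl ht)
  · exact opF_mem ht
  · exact opH_mem (by simp [D2]) ht
  · exact opZ_mem ht)

lemma e_aux (l i j k : ℕ) (D : Set Ix) (hD : D3 ⊆ D) (h : (l, i, j, k) ∈ D3) :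
    (l, i - 1, j, k) ∈ D ∨ (i : ℂ) * (0 + 2 * j - i + 1) = 0 := by
  by_cases h1 : i = 1 ∧ j = 0
  · right; simp [h1.1, h1.2]
  by_cases h2 : i = 0
  · right; simp [h2]
  left
  apply hD
  simp only [D3, Set.mem_setOf_eq] at h ⊢
  omega

noncomputable def I3 : Submodule U U := mkI 0 D3 (fun g l i j k ht => by
  fin_cases g
  · exact opE_mem (by simp [D3]) (by simp [D3]) (e_aux l i j k _ subset_rfl ht)
  · exact opF_mem (by simp [D3])
  · exact opH_mem (by simp [D3]) ht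
  · exact opZ_mem ht)

lemma D34 : D3 ⊆ D4 := fun t ht => by
  simp only [D3, D4, Set.mem_setOf_eq] at ht ⊢; omega

noncomputable def I4 : Submodule U U := mkI 0 D4 (fun g l i j k ht => by
  fin_cases g
  · refine opE_mem (by simp [D4]) (by simp [D4]) ?_
    by_cases h : (l, i, j, k) ∈ D3
    · exact e_aux l i j k _ D34 h
    · left
      simp only [D3, D4, Set.mem_setOf_eq] at ht h ⊢; omega
  · exact opF_mem (by simp [D4])
  · exact opH_mem (by simp [D4]) ht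
  · exact opZ_mem (by simp [D4]))

lemma bot_iff (α : ℂ) (u : U) : u ∈ (⊥ : Submodule U U) ↔ u ∈ Sp α ∅ :=
  ⟨fun h => by rw [(Submodule.mem_bot _).1 h]; exact zero_mem _, fun h => by simp [Sp_empty h]⟩

lemma step1 (α : ℂ) : Step ⊥ ⊥ (I1 α) (Ha α) := by
  refine step_of (α' := α) (α := α) (bot_iff α) (bot_iff α) (fun _ => Iff.rfl) (Ha_mem α) ?_
    (fun t => (t.1, t.2.1, t.2.2.1, t.2.2.2 + 1)) ?_ (by simp) ?_ (by simp) ?_ (by simp) ?_
  · have : bb α 0 0 0 1 ∈ Sp α D1 := bb_mem (by simp [D1])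
    simpa [bb] using this
  · rintro ⟨l, i, j, k⟩ ⟨l', i', j', k'⟩ h; simpa using h
  · intro t _; simp [bt, bb, pow_succ, mul_assoc]
  · intro t; simp [deg, add_assoc]
  · rintro ⟨l, i, j, k⟩ ht _
    simp only [D1, Set.mem_setOf_eq] at ht
    exact ⟨(l, i, j, k - 1), by simp, by simp; omega⟩

lemma H_e (α : ℂ) (k : ℕ) : Ha (α + 2) ^ k * gen 0 = gen 0 * Ha α ^ k := by
  have : Ha (α + 2) * gen 0 = gen 0 * Ha α := by
    simp only [Ha, sub_mul, mul_sub, quad_gen.he, ← Algebra.commutes, ← Algebra.smul_def]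
    module
  exact (SemiconjBy.pow_right this.symm k).eq.symm

lemma H_f (α : ℂ) (k : ℕ) : Ha (α - 2) ^ k * gen 1 = gen 1 * Ha α ^ k := by
  have : Ha (α - 2) * gen 1 = gen 1 * Ha α := by
    simp only [Ha, sub_mul, mul_sub, quad_gen.hf, ← Algebra.commutes, ← Algebra.smul_def]
    module
  exact (SemiconjBy.pow_right this.symm k).eq.symm

lemma step2 (α : ℂ) : Step (I1 (α + 2)) (I1 α) (I2 α) (gen 0) := by
  have hb : ∀ t : Ix, bt (α + 2) t * gen 0 = bt α (t.1, t.2.1, t.2.2.1 + 1, t.2.2.2) := by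
    intro t; simp [bt, bb, pow_succ, mul_assoc, H_e]
  refine step_of (α' := α + 2) (α := α) (fun _ => Iff.rfl) (fun _ => Iff.rfl) (fun _ => Iff.rfl)
    (gen_mem_Fil1 0) ?_
    (fun t => (t.1, t.2.1, t.2.2.1 + 1, t.2.2.2)) ?_ ?_ (fun t _ => hb t) (fun t h => h) ?_ ?_ ?_
  · have : bb α 0 0 1 0 ∈ Sp α D2 := bb_mem (by simp [D2])
    simpa [bb] using this
  · rintro ⟨l, i, j, k⟩ ⟨l', i', j', k'⟩ h; simpa using h
  · intro t ht; rw [hb]; exact bt_mem ht
  · intro t; simp only [deg]; omega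
  · intro t ht; exact Or.inl ht
  · rintro ⟨l, i, j, k⟩ ht h2
    simp only [D1, D2, Set.mem_setOf_eq] at ht h2
    exact ⟨(l, i, j - 1, k), h2, by simp; omega⟩

lemma step3 : Step (I2 (0 - 2)) (I2 0) I3 (gen 1) := by
  have hH : Ha 0 ∈ I2 0 := by
    have : bb 0 0 0 0 1 ∈ I2 0 := bb_mem (T := D2) (by simp [D2])
    simpa [bb] using this
  have he : gen 0 ∈ I2 0 := by
    have : bb 0 0 0 1 0 ∈ I2 0 := bb_mem (T := D2) (by simp [D2])
    simpa [bb] using this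
  refine step_of (α' := 0 - 2) (α := 0) (fun _ => Iff.rfl) (fun _ => Iff.rfl) (fun _ => Iff.rfl)
    (gen_mem_Fil1 1) ?_
    (fun t => (t.1, t.2.1 + 1, t.2.2.1, t.2.2.2)) ?_ ?_ ?_ (fun t h => h) ?_ ?_ ?_
  · have : bb 0 0 1 0 0 ∈ Sp 0 D3 := bb_mem (by simp [D3])
    simpa [bb] using this
  · rintro ⟨l, i, j, k⟩ ⟨l', i', j', k'⟩ h; simpa using h
  · rintro ⟨l, i, j, k⟩ ht
    change _ ∈ I2 0
    simp only [bt, bb, mul_assoc, H_f]
    refine (I2 0).smul_mem _ ((I2 0).smul_mem _ ?_)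
    rcases k with _ | k
    · rcases j with _ | j
      · simp [D2] at ht
      · rw [pow_zero, mul_one, pow_succ, mul_assoc, quad_gen.ef]
        refine (I2 0).smul_mem _ (add_mem ((I2 0).smul_mem _ he) ?_)
        simpa [Ha] using hH
    · rw [pow_succ, ← mul_assoc]
      exact (I2 0).smul_mem _ ((I2 0).smul_mem _ hH)
  · rintro ⟨l, i, j, k⟩ ht
    simp only [D2, Set.mem_setOf_eq] at ht
    obtain rfl : k = 0 := by omega
    obtain rfl : j = 0 := by omega
    simp [bt, bb, pow_succ, mul_assoc]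
  · intro t; simp only [deg]; omega
  · intro t ht; simp only [D2, D3, Set.mem_setOf_eq] at ht ⊢; omega
  · rintro ⟨l, i, j, k⟩ ht h2
    simp only [D3, D2, Set.mem_setOf_eq] at ht h2
    exact ⟨(l, i - 1, j, k), h2, by simp; omega⟩

lemma z_bt (α : ℂ) (t : Ix) : gen 3 * bt α t = bt α (t.1 + 1, t.2.1, t.2.2.1, t.2.2.2) := by
  simp [bt, bb, pow_succ', mul_assoc]

lemma step4 : Step I3 I3 I4 (gen 3) := by
  refine step_of (α' := 0) (α := 0) (fun _ => Iff.rfl) (fun _ => Iff.rfl) (fun _ => Iff.rfl)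
    (gen_mem_Fil1 3) ?_
    (fun t => (t.1 + 1, t.2.1, t.2.2.1, t.2.2.2)) ?_ ?_ (fun t _ => by rw [← z_comm, z_bt])
    (fun t h => h) ?_ D34 ?_
  · have : bb 0 1 0 0 0 ∈ Sp 0 D4 := bb_mem (by simp [D4])
    simpa [bb] using this
  · rintro ⟨l, i, j, k⟩ ⟨l', i', j', k'⟩ h; simpa using h
  · intro t ht; rw [← z_comm, z_bt]; exact bt_mem ht
  · intro t; simp only [deg]; omega
  · rintro ⟨l, i, j, k⟩ ht h2
    simp only [D3, D4, Set.mem_setOf_eq] at ht h2
    exact ⟨(l - 1, i, j, k), h2, by simp; omega⟩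

/-- existence of a `z`-degree filtration on `U ⧸ I` -/
def ZI (I : Submodule U U) : Prop :=
  ∃ D : ℕ → Submodule ℂ U, (∀ u, u ∈ D 0 ↔ u ∈ I) ∧ Monotone D ∧ (∀ u, ∃ n, u ∈ D n) ∧
    (∀ n g, g ≠ 3 → ∀ u ∈ D n, gen g * u ∈ D n) ∧ (∀ n u, gen 3 * u ∈ D (n + 1) → u ∈ D n)

lemma zi_of {α : ℂ} {D : Set Ix} {I : Submodule U U} (hI : ∀ u, u ∈ I ↔ u ∈ Sp α D)
    (hD : ∀ t : Ix, (t.1 + 1, t.2.1, t.2.2.1, t.2.2.2) ∈ D → t ∈ D) : ZI I := by
  refine ⟨fun n => Sp α (D ∪ {t | t.1 < n}), fun u => by simp [hI], ?_, fun u => ?_,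
    fun n g hg u hu => ?_, fun n u hu => ?_⟩
  · intro a b hab
    exact Sp_mono (Set.union_subset_union_right _ fun t (ht : t.1 < a) => lt_of_lt_of_le ht hab)
  · obtain ⟨a, ha⟩ := exists_Fil u
    rw [Fil_eq α] at ha
    refine ⟨a + 1, Sp_mono (fun t ht => Or.inr ?_) ha⟩
    simp only [deg, Set.mem_setOf_eq] at ht ⊢; omega
  · refine Sp_le (N := (Sp α (D ∪ {t | t.1 < n})).comap (LinearMap.mulLeft ℂ (gen g))) ?_ hu
    rintro t (ht | ht)
    · have h1 : gen g * bt α t ∈ I := I.smul_mem _ ((hI _).2 (bt_mem ht))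
      have h2 : gen g * bt α t ∈ Sp α (D ∪ {t | t.1 < n}) :=
        Sp_mono Set.subset_union_left ((hI _).1 h1)
      rw [Submodule.mem_comap, LinearMap.mulLeft_apply]
      exact h2
    · rw [Submodule.mem_comap, LinearMap.mulLeft_apply]
      refine Sp_mono Set.subset_union_right (gen_mul_Sp (T := {t | t.1 < n}) g ?_ (bt_mem ht))
      intro l i j k h
      fin_cases g
      · exact opE_mem h h (Or.inl h)
      · exact opF_mem h
      · exact opH_mem h h
      · exact absurd rfl hg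
  · refine key (D' := ∅) (D := ∅) (LinearMap.mulLeft ℂ (gen 3))
      (fun t => (t.1 + 1, t.2.1, t.2.2.1, t.2.2.2)) ?_ (by simp) (fun t _ => z_bt α t)
      (by simp) (by simp) ?_ hu
    · rintro ⟨l, i, j, k⟩ ⟨l', i', j', k'⟩ h; simpa using h
    · rintro t _ (ht | ht)
      · exact Or.inl (hD t ht)
      · right; simp only [Set.mem_setOf_eq] at ht ⊢; omega

lemma zi0 : ZI ⊥ := zi_of (bot_iff 0) (by simp)
lemma zi1 (α : ℂ) : ZI (I1 α) := zi_of (α := α) (D := D1) (fun _ => Iff.rfl) (fun _ h => h)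
lemma zi2 (α : ℂ) : ZI (I2 α) := zi_of (α := α) (D := D2) (fun _ => Iff.rfl) (fun _ h => h)
lemma zi3 : ZI I3 := zi_of (α := 0) (D := D3) (fun _ => Iff.rfl) (fun _ h => h)

lemma gen_mem_I4 (g : Fin 4) : gen g ∈ I4 := by
  have h1 : (1 : U) ∈ Sp 0 {(0, 0, 0, 0)} := by
    have : bb 0 0 0 0 0 ∈ Sp 0 {(0, 0, 0, 0)} := bb_mem rfl
    simpa [bb] using this
  have := gen_mul_Sp (T' := D4) g (fun l i j k h => by
    simp only [Set.mem_singleton_iff, Prod.mk.injEq] at h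
    obtain ⟨rfl, rfl, rfl, rfl⟩ := h
    fin_cases g
    · exact opE_mem (by simp [D4]) (by simp [D4]) (Or.inr (by simp))
    · exact opF_mem (by simp [D4])
    · simpa [op, opH] using bs_mem (by simp [D4])
    · exact opZ_mem (by simp [D4])) h1
  rw [mul_one] at this
  exact this

lemma alg_mem_I4 {c : ℂ} (h : algebraMap ℂ U c ∈ I4) : c = 0 := by
  have := mem_Sp.1 h (0, 0, 0, 0) (by simp [D4])
  simpa [rep_apply, bs] using this

lemma exists_sub_mem_I4 (u : U) : ∃ c : ℂ, u - algebraMap ℂ U c ∈ I4 := by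
  refine ⟨rep 0 u (0, 0, 0, 0), mem_Sp.2 ?_⟩
  rintro ⟨l, i, j, k⟩ ht
  simp only [D4, Set.mem_setOf_eq] at ht
  obtain rfl : k = 0 := by omega
  obtain rfl : j = 0 := by omega
  obtain rfl : i = 0 := by omega
  obtain rfl : l = 0 := by omega
  rw [map_sub]
  simp [rep_apply, bs]

lemma U_one_ne_zero : (1 : U) ≠ 0 := by
  intro h
  have : algebraMap ℂ U 1 ∈ I4 := by rw [map_one, h]; exact zero_mem _
  exact one_ne_zero (alg_mem_I4 this)

end Crest.Agent.H0268
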