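import Mathlib

set_option autoImplicit false

namespace Crest.Agent.H0268

open Function

/-- defining relations of the enveloping algebra of gl₂ (generators e,f,h,z = 0,1,2,3) -/
inductive Rel : FreeAlgebra ℂ (Fin 4) → FreeAlgebra ℂ (Fin 4) → Prop
  | he : Rel (FreeAlgebra.ι ℂ 2 * FreeAlgebra.ι ℂ 0)
      (FreeAlgebra.ι ℂ 0 * FreeAlgebra.ι ℂ 2 + (FreeAlgebra.ι ℂ 0 + FreeAlgebra.ι ℂ 0))
  | hf : Rel (FreeAlgebra.ι ℂ 2 * FreeAlgebra.ι ℂ 1)
      (FreeAlgebra.ι ℂ 1 * FreeAlgebra.ι ℂ 2 - (FreeAlgebra.ι ℂ 1 + FreeAlgebra.ι ℂ 1))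
  | ef : Rel (FreeAlgebra.ι ℂ 0 * FreeAlgebra.ι ℂ 1)
      (FreeAlgebra.ι ℂ 1 * FreeAlgebra.ι ℂ 0 + FreeAlgebra.ι ℂ 2)
  | z (i : Fin 4) : Rel (FreeAlgebra.ι ℂ 3 * FreeAlgebra.ι ℂ i) (FreeAlgebra.ι ℂ i * FreeAlgebra.ι ℂ 3)

def U : Type := RingQuot Rel

noncomputable instance : Ring U := inferInstanceAs (Ring (RingQuot Rel))
noncomputable instance : Algebra ℂ U := inferInstanceAs (Algebra ℂ (RingQuot Rel))

noncomputable def mkU : FreeAlgebra ℂ (Fin 4) →ₐ[ℂ] U := RingQuot.mkAlgHom ℂ Rel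

/-- the generators -/
noncomputable def gen (i : Fin 4) : U := mkU (FreeAlgebra.ι ℂ i)

/-- a quadruple satisfying the relations -/
structure Quad {R : Type} [Ring R] (x : Fin 4 → R) : Prop where
  he : x 2 * x 0 = x 0 * x 2 + (x 0 + x 0)
  hf : x 2 * x 1 = x 1 * x 2 - (x 1 + x 1)
  ef : x 0 * x 1 = x 1 * x 0 + x 2
  z : ∀ i, x 3 * x i = x i * x 3

lemma quad_gen : Quad gen := by
  have h : ∀ a b, Rel a b → mkU a = mkU b := fun a b h => RingQuot.mkAlgHom_rel ℂ h
  refine ⟨?_, ?_, ?_, fun i => ?_⟩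
  · simpa [gen] using h _ _ Rel.he
  · simpa [gen] using h _ _ Rel.hf
  · simpa [gen] using h _ _ Rel.ef
  · simpa [gen] using h _ _ (Rel.z i)

noncomputable def lift {R : Type} [Ring R] [Algebra ℂ R] (x : Fin 4 → R) (hx : Quad x) :
    U →ₐ[ℂ] R :=
  RingQuot.liftAlgHom ℂ ⟨FreeAlgebra.lift ℂ x, by
    intro a b h
    cases h with
    | he => simpa using hx.he
    | hf => simpa using hx.hf
    | ef => simpa using hx.ef
    | z i => simpa using hx.z i⟩

@[simp] lemma lift_gen {R : Type} [Ring R] [Algebra ℂ R] (x : Fin 4 → R) (hx : Quad x)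
    (i : Fin 4) : lift x hx (gen i) = x i := by
  have := RingQuot.liftAlgHom_mkAlgHom_apply ℂ (FreeAlgebra.lift ℂ x) (s := Rel) (by
    intro a b h
    cases h with
    | he => simpa using hx.he
    | hf => simpa using hx.hf
    | ef => simpa using hx.ef
    | z i => simpa using hx.z i) (FreeAlgebra.ι ℂ i)
  exact this.trans (FreeAlgebra.lift_ι_apply x i)

@[elab_as_elim]
lemma U.induction {P : U → Prop} (hc : ∀ c : ℂ, P (algebraMap ℂ U c)) (hg : ∀ i, P (gen i))
    (hm : ∀ a b, P a → P b → P (a * b)) (ha : ∀ a b, P a → P b → P (a + b)) (u : U) : P u := by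
  obtain ⟨x, rfl⟩ : ∃ x, mkU x = u := RingQuot.mkAlgHom_surjective ℂ Rel u
  induction x using FreeAlgebra.induction with
  | grade0 r => simpa using hc r
  | grade1 i => exact hg i
  | mul a b h1 h2 => simpa using hm _ _ h1 h2
  | add a b h1 h2 => simpa using ha _ _ h1 h2

lemma Quad.map {R R' : Type} [Ring R] [Ring R'] {F : Type} [FunLike F R R'] [RingHomClass F R R']
    {x : Fin 4 → R} (hx : Quad x) (φ : F) : Quad (fun i => φ (x i)) := by
  refine ⟨?_, ?_, ?_, fun i => ?_⟩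
  · simpa using congrArg φ hx.he
  · simpa using congrArg φ hx.hf
  · simpa using congrArg φ hx.ef
  · simpa using congrArg φ (hx.z i)

lemma Quad.add {R : Type} [Ring R] {x y : Fin 4 → R} (hx : Quad x) (hy : Quad y)
    (h : ∀ i j, x i * y j = y j * x i) : Quad (fun i => x i + y i) := by
  refine ⟨?_, ?_, ?_, fun i => ?_⟩
  · simp only [add_mul, mul_add, hx.he, hy.he, h]; abel
  · simp only [add_mul, mul_add, hx.hf, hy.hf, h]; abel
  · simp only [add_mul, mul_add, hx.ef, hy.ef, h]; abel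
  · simp only [add_mul, mul_add, hx.z i, hy.z i, h]; abel

lemma z_comm (u : U) : gen 3 * u = u * gen 3 := by
  induction u using U.induction with
  | hc c => exact (Algebra.commutes c _).symm
  | hg i => exact quad_gen.z i
  | hm a b h1 h2 => rw [← mul_assoc, h1, mul_assoc, h2, mul_assoc]
  | ha a b h1 h2 => rw [mul_add, add_mul, h1, h2]

/-- an additive map commuting with scalars and generators is `U`-linear -/
def linOfGen {Y Y' : Type} [AddCommGroup Y] [Module U Y] [AddCommGroup Y'] [Module U Y']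
    (φ : Y →+ Y') (hc : ∀ (c : ℂ) y, φ (algebraMap ℂ U c • y) = algebraMap ℂ U c • φ y)
    (hg : ∀ i y, φ (gen i • y) = gen i • φ y) : Y →ₗ[U] Y' where
  toFun := φ
  map_add' := φ.map_add
  map_smul' := fun u y => by
    rw [RingHom.id_apply]
    induction u using U.induction generalizing y with
    | hc c => exact hc c y
    | hg i => exact hg i y
    | hm a b h1 h2 => rw [mul_smul, h1, h2, mul_smul]
    | ha a b h1 h2 => rw [add_smul, map_add, h1, h2, add_smul]

@[simp] lemma linOfGen_apply {Y Y' : Type} [AddCommGroup Y] [Module U Y] [AddCommGroup Y']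
    [Module U Y'] (φ : Y →+ Y') (hc) (hg) (y : Y) : linOfGen φ hc hg y = φ y := rfl

/-! ### The filtration -/

noncomputable def S1 : Submodule ℂ U := Submodule.span ℂ (insert 1 (Set.range gen))

noncomputable def Fil (m : ℕ) : Submodule ℂ U := S1 ^ m

lemma one_mem_S1 : (1 : U) ∈ S1 := Submodule.subset_span (Set.mem_insert _ _)
lemma gen_mem_S1 (i : Fin 4) : gen i ∈ S1 := Submodule.subset_span (Or.inr ⟨i, rfl⟩)

lemma Fil_mul {a b : ℕ} {u v : U} (hu : u ∈ Fil a) (hv : v ∈ Fil b) : u * v ∈ Fil (a + b) := by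
  rw [Fil, pow_add]; exact Submodule.mul_mem_mul hu hv

lemma Fil_one : Fil 1 = S1 := pow_one _

lemma alg_mem_Fil0 (c : ℂ) : algebraMap ℂ U c ∈ Fil 0 := by
  rw [Fil, pow_zero]; exact Submodule.algebraMap_mem c

lemma one_mem_Fil0 : (1 : U) ∈ Fil 0 := by simpa using alg_mem_Fil0 1

lemma gen_mem_Fil1 (i : Fin 4) : gen i ∈ Fil 1 := Fil_one ▸ gen_mem_S1 i

lemma Fil_succ (a : ℕ) : Fil a ≤ Fil (a + 1) := fun u hu => by
  simpa using Fil_mul hu (Fil_one ▸ one_mem_S1 : (1 : U) ∈ Fil 1)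

lemma Fil_mono : Monotone Fil := monotone_nat_of_le_succ Fil_succ

lemma alg_mem_Fil (c : ℂ) (a : ℕ) : algebraMap ℂ U c ∈ Fil a := Fil_mono (Nat.zero_le a) (alg_mem_Fil0 c)

lemma one_mem_Fil (a : ℕ) : (1 : U) ∈ Fil a := Fil_mono (Nat.zero_le a) one_mem_Fil0

lemma exists_Fil (u : U) : ∃ a, u ∈ Fil a := by
  induction u using U.induction with
  | hc c => exact ⟨0, alg_mem_Fil0 c⟩
  | hg i => exact ⟨1, gen_mem_Fil1 i⟩
  | hm a b h1 h2 => obtain ⟨x, hx⟩ := h1; obtain ⟨y, hy⟩ := h2; exact ⟨x + y, Fil_mul hx hy⟩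
  | ha a b h1 h2 =>
    obtain ⟨x, hx⟩ := h1; obtain ⟨y, hy⟩ := h2
    exact ⟨x + y, add_mem (Fil_mono (Nat.le_add_right x y) hx) (Fil_mono (Nat.le_add_left y x) hy)⟩

lemma Fil_fg (a : ℕ) : (Fil a).FG :=
  Submodule.FG.pow (Submodule.fg_span ((Set.finite_range gen).insert 1)) a

/-- induction principle for the filtration -/
lemma Fil_induction {P : ℕ → U → Prop} (h0 : ∀ c : ℂ, P 0 (algebraMap ℂ U c))
    (hz : ∀ a, P a 0) (ha : ∀ a u v, P a u → P a v → P a (u + v))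
    (hs : ∀ a (c : ℂ) u, P a u → P a (c • u))
    (h1 : ∀ a u, P a u → P (a + 1) u) (hg : ∀ a i u, P a u → P (a + 1) (gen i * u)) :
    ∀ a u, u ∈ Fil a → P a u := by
  intro a
  induction a with
  | zero =>
    intro u hu
    rw [Fil, pow_zero, Submodule.mem_one] at hu
    obtain ⟨c, rfl⟩ := hu
    exact h0 c
  | succ a ih =>
    intro u hu
    rw [Fil, pow_succ'] at hu
    refine Submodule.mul_induction_on hu ?_ (ha _)
    intro m hm n hn
    induction hm using Submodule.span_induction with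
    | mem x hx =>
      rcases hx with rfl | ⟨i, rfl⟩
      · rw [one_mul]; exact h1 _ _ (ih n hn)
      · exact hg _ _ _ (ih n hn)
    | zero => rw [zero_mul]; exact hz _
    | add x y _ _ hx hy => rw [add_mul]; exact ha _ _ _ hx hy
    | smul c x _ hx => rw [smul_mul_assoc]; exact hs _ _ _ hx

/-- `Ud a b = U_{a-b}` -/
noncomputable def Ud (a b : ℕ) : Submodule ℂ U := if b ≤ a then Fil (a - b) else ⊥

lemma Ud_of_le {a b : ℕ} (h : b ≤ a) : Ud a b = Fil (a - b) := if_pos h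
lemma Ud_of_lt {a b : ℕ} (h : a < b) : Ud a b = ⊥ := if_neg (by omega)

lemma Ud_le (a b : ℕ) : Ud a b ≤ Fil a := by
  unfold Ud; split_ifs
  · exact Fil_mono (Nat.sub_le a b)
  · exact bot_le

lemma mem_Ud {a b : ℕ} {u : U} : u ∈ Ud a b ↔ u = 0 ∨ ∃ c, b + c = a ∧ u ∈ Fil c := by
  unfold Ud; split_ifs with h
  · constructor
    · intro hu; exact Or.inr ⟨a - b, by omega, hu⟩
    · rintro (rfl | ⟨c, rfl, hc⟩)
      · exact zero_mem _
      · simpa using hc
  · constructor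
    · intro hu; exact Or.inl hu
    · rintro (rfl | ⟨c, rfl, hc⟩)
      · exact zero_mem _
      · omega

lemma Ud_mul {a b c : ℕ} {u v : U} (hu : u ∈ Ud a b) (hv : v ∈ Ud b c) : u * v ∈ Ud a c := by
  rcases mem_Ud.1 hu with rfl | ⟨x, rfl, hx⟩
  · simp
  rcases mem_Ud.1 hv with rfl | ⟨y, rfl, hy⟩
  · simp
  exact mem_Ud.2 (Or.inr ⟨x + y, by omega, Fil_mul hx hy⟩)

lemma Fil_mul_Ud {a i j : ℕ} {u v : U} (hu : u ∈ Fil a) (hv : v ∈ Ud i j) :
    u * v ∈ Ud (a + i) j :=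
  Ud_mul (mem_Ud.2 (Or.inr ⟨a, by omega, hu⟩)) hv

lemma Ud_shift {a b : ℕ} (k : ℕ) : Ud (a + k) (b + k) = Ud a b := by
  ext u
  simp only [mem_Ud]
  constructor <;> rintro (h | ⟨c, h1, h2⟩)
  · exact Or.inl h
  · exact Or.inr ⟨c, by omega, h2⟩
  · exact Or.inl h
  · exact Or.inr ⟨c, by omega, h2⟩

lemma Ud_mono {a a' b b' : ℕ} (h : a + b' ≤ a' + b) : Ud a b ≤ Ud a' b' := by
  intro u hu
  rcases mem_Ud.1 hu with rfl | ⟨x, rfl, hx⟩
  · simp
  · exact mem_Ud.2 (Or.inr ⟨a' - b', by omega, Fil_mono (by omega) hx⟩)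

lemma one_mem_Ud (a : ℕ) : (1 : U) ∈ Ud a a := mem_Ud.2 (Or.inr ⟨0, rfl, one_mem_Fil0⟩)

lemma Ud_zero (a : ℕ) : Ud a 0 = Fil a := by simp [Ud]

/-! ### Twisting by a matrix representation -/

section Twist

variable {ι : Type} [Fintype ι] [DecidableEq ι]

noncomputable def scal (ι : Type) [Fintype ι] [DecidableEq ι] : U →+* Matrix ι ι U :=
  Matrix.scalar ι

noncomputable def cst (ι : Type) [Fintype ι] [DecidableEq ι] :
    Matrix ι ι ℂ →+* Matrix ι ι U := (algebraMap ℂ U).mapMatrix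

lemma scal_apply (u : U) (i j : ι) : scal ι u i j = if i = j then u else 0 := by
  simp [scal, Matrix.scalar_apply, Matrix.diagonal_apply]

lemma cst_apply (M : Matrix ι ι ℂ) (i j : ι) : cst ι M i j = algebraMap ℂ U (M i j) := rfl

lemma scal_cst (u : U) (M : Matrix ι ι ℂ) : scal ι u * cst ι M = cst ι M * scal ι u := by
  ext i j
  simp [Matrix.mul_apply, scal_apply, cst_apply, Algebra.commutes]

noncomputable def Del (ρ : U →ₐ[ℂ] Matrix ι ι ℂ) : U →ₐ[ℂ] Matrix ι ι U :=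
  lift (fun i => scal ι (gen i) + cst ι (ρ (gen i)))
    ((quad_gen.map (scal ι)).add ((quad_gen.map ρ).map (cst ι)) (fun _ _ => scal_cst _ _))

lemma Del_gen (ρ : U →ₐ[ℂ] Matrix ι ι ℂ) (g : Fin 4) (i j : ι) :
    Del ρ (gen g) i j = (if i = j then gen g else 0) + algebraMap ℂ U (ρ (gen g) i j) := by
  simp [Del, scal_apply, cst_apply]

lemma Del_alg (ρ : U →ₐ[ℂ] Matrix ι ι ℂ) (c : ℂ) (i j : ι) :
    Del ρ (algebraMap ℂ U c) i j = if i = j then algebraMap ℂ U c else 0 := by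
  rw [AlgHom.commutes, Matrix.algebraMap_matrix_apply]

lemma Del_sub (ρ : U →ₐ[ℂ] Matrix ι ι ℂ) : ∀ a u, u ∈ Fil a →
    u ∈ Fil a ∧ ∀ i j, Del ρ u i j - (if i = j then u else 0) ∈ Ud a 1 := by
  refine Fil_induction (fun c => ⟨alg_mem_Fil0 c, fun i j => ?_⟩)
    (fun a => ⟨zero_mem _, fun i j => ?_⟩)
    (fun a u v hu hv => ⟨add_mem hu.1 hv.1, fun i j => ?_⟩)
    (fun a c u hu => ⟨Submodule.smul_mem _ _ hu.1, fun i j => ?_⟩)
    (fun a u hu => ⟨Fil_succ _ hu.1, fun i j => Ud_mono (by omega) (hu.2 i j)⟩)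
    (fun a g u hu => ⟨add_comm 1 a ▸ Fil_mul (gen_mem_Fil1 g) hu.1, fun i j => ?_⟩)
  · simp [Del_alg]
  · simp
  · have := add_mem (hu.2 i j) (hv.2 i j)
    convert this using 1
    rw [map_add, Matrix.add_apply]
    split_ifs <;> abel
  · have := Submodule.smul_mem _ c (hu.2 i j)
    convert this using 1
    rw [map_smul, Matrix.smul_apply]
    split_ifs <;> simp [smul_sub]
  · have h1 : Del ρ (gen g * u) i j - (if i = j then gen g * u else 0) =
        gen g * (Del ρ u i j - (if i = j then u else 0)) +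
          ∑ k, ρ (gen g) i k • ((Del ρ u k j - (if k = j then u else 0)) +
            (if k = j then u else 0)) := by
      rw [map_mul, Matrix.mul_apply]
      simp only [Del_gen, add_mul, Finset.sum_add_distrib, ite_mul, zero_mul, Finset.sum_ite_eq,
        Finset.mem_univ, if_true, sub_add_cancel, Algebra.smul_def, mul_sub, mul_ite, mul_zero]
      abel
    rw [h1]
    refine add_mem ?_ (Submodule.sum_mem _ fun k _ => Submodule.smul_mem _ _ (add_mem ?_ ?_))
    · exact add_comm 1 a ▸ Fil_mul_Ud (gen_mem_Fil1 g) (hu.2 i j)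
    · exact Ud_mono (by omega) (hu.2 k j)
    · split_ifs
      · exact mem_Ud.2 (Or.inr ⟨a, by omega, hu.1⟩)
      · exact zero_mem _

lemma Del_sub_Ud (ρ : U →ₐ[ℂ] Matrix ι ι ℂ) {a b : ℕ} {u : U} (hu : u ∈ Ud a b) (i j : ι) :
    Del ρ u i j - (if i = j then u else 0) ∈ Ud a (b + 1) := by
  rcases mem_Ud.1 hu with rfl | ⟨x, rfl, hx⟩
  · simp
  · exact Ud_mono (by omega) ((Del_sub ρ x u hx).2 i j)

lemma Del_mem_Ud (ρ : U →ₐ[ℂ] Matrix ι ι ℂ) {a b : ℕ} {u : U} (hu : u ∈ Ud a b) (i j : ι) :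
    Del ρ u i j ∈ Ud a b := by
  have h := Ud_mono (a' := a) (b' := b) (by omega) (Del_sub_Ud ρ hu i j)
  have h2 : (if i = j then u else 0) ∈ Ud a b := by
    split_ifs
    · exact hu
    · exact zero_mem _
  simpa using add_mem h h2

lemma Del_mem_Fil (ρ : U →ₐ[ℂ] Matrix ι ι ℂ) {a : ℕ} {u : U} (hu : u ∈ Fil a) (i j : ι) :
    Del ρ u i j ∈ Fil a := by
  rw [← Ud_zero] at hu ⊢; exact Del_mem_Ud ρ hu i j

end Twist

/-! ### The two-dimensional representation and the intertwiner -/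

noncomputable def rhoW : U →ₐ[ℂ] Matrix (Fin 2) (Fin 2) ℂ :=
  lift ![!![0, 1; 0, 0], !![0, 0; 1, 0], !![1, 0; 0, -1], !![-1, 0; 0, -1]] (by
    refine ⟨?_, ?_, ?_, fun i => ?_⟩
    · ext i j; fin_cases i <;> fin_cases j <;> simp
    · ext i j; fin_cases i <;> fin_cases j <;> simp
    · ext i j; fin_cases i <;> fin_cases j <;> simp
    · fin_cases i <;> ext i j <;> fin_cases i <;> fin_cases j <;> simp)

noncomputable def om : Matrix (Fin 2) (Fin 2) U :=
  !![gen 3 + gen 2 + 2, gen 1 + gen 1; gen 0 + gen 0, gen 3 - gen 2 + 2]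

lemma om_mem (s t : Fin 2) : om s t ∈ Fil 1 := by
  have h2 : (2 : U) ∈ Fil 1 := by
    have := add_mem (one_mem_Fil 1) (one_mem_Fil 1)
    rwa [one_add_one_eq_two] at this
  have hg := gen_mem_Fil1
  fin_cases s <;> fin_cases t <;> simp only [om, Fin.zero_eta, Fin.mk_one, Matrix.of_apply,
    Matrix.cons_val', Matrix.cons_val_zero, Matrix.cons_val_one, Matrix.cons_val_fin_one]
  · exact add_mem (add_mem (hg _) (hg _)) h2
  · exact add_mem (hg _) (hg _)
  · exact add_mem (hg _) (hg _)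
  · exact add_mem (sub_mem (hg _) (hg _)) h2

lemma om_comm (u : U) : om * Del rhoW u = Del rhoW u * om := by
  induction u using U.induction with
  | hc c => rw [AlgHom.commutes]; exact (Algebra.commutes c _).symm
  | hm a b h1 h2 => rw [map_mul, ← mul_assoc, h1, mul_assoc, h2, mul_assoc]
  | ha a b h1 h2 => rw [map_add, mul_add, add_mul, h1, h2]
  | hg g =>
    have h1 := quad_gen.he
    have h2 := quad_gen.hf
    have h3 := quad_gen.ef
    have h4 := quad_gen.z 0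
    have h5 := quad_gen.z 1
    have h6 := quad_gen.z 2
    have h7 : (2 : U) = 1 + 1 := one_add_one_eq_two.symm
    ext i j
    fin_cases g <;> fin_cases i <;> fin_cases j <;>
      simp [Matrix.mul_apply, Fin.sum_univ_two, Del_gen, om, rhoW, add_mul, mul_add, sub_mul,
        mul_sub, h1, h2, h3, h4, h5, h6, two_mul, mul_two] <;>
      first | abel1 | (simp only [h7]; abel1) | simp only [h7]

end Crest.Agent.H0268
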